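import Vale.Agent.P145.H8.Nec

/-!
# P145 / H8 / Asm : sufficiency and necessity of the stability
-/

namespace Vale.Agent.P145.H8

open Filter Topology Set MeasureTheory ProbabilityTheory
open Vale.Agent.P145.PT Vale.Agent.P145.FP Vale.Agent.P145.Dom Vale.Agent.P145.Top
open Vale.Agent.P145.FA (PlIn)

/-! ### Gaussian preliminaries -/

theorem gaussian_min_le {S : Matrix (Fin 1) (Fin 1) ℝ} (hS : S.PosSemidef) {M : ℝ} (hM : 0 ≤ M) :
    ∫ y, min (y 0 ^ 2) M ∂(multivariateGaussian 0 S) ≤ S 0 0 := by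
  have hmp := measurePreserving_eval_multivariateGaussian (μ := 0) hS (i := (0 : Fin 1))
  have h0 : (0 : EuclideanSpace ℝ (Fin 1)) 0 = 0 := rfl
  rw [h0] at hmp
  have hv : 0 ≤ S 0 0 := hS.diag_nonneg
  have e1 : ∫ y, min (y 0 ^ 2) M ∂(multivariateGaussian 0 S)
      = ∫ x, min (x ^ 2) M ∂(gaussianReal 0 (S 0 0).toNNReal) := by
    rw [← hmp.map_eq, integral_map hmp.measurable.aemeasurable (by fun_prop)]
  have hint : Integrable (fun x : ℝ => x ^ 2) (gaussianReal 0 (S 0 0).toNNReal) :=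
    (memLp_id_gaussianReal 2).integrable_sq
  have e2 : ∫ x, x ^ 2 ∂(gaussianReal 0 (S 0 0).toNNReal) = S 0 0 := by
    have h := variance_fun_id_gaussianReal (μ := 0) (v := (S 0 0).toNNReal)
    rw [variance_of_integral_eq_zero (by fun_prop) (by simp)] at h
    rw [h, Real.coe_toNNReal _ hv]
  rw [e1]
  refine le_trans ?_ e2.le
  refine integral_mono_of_nonneg (ae_of_all _ fun x => ?_) hint (ae_of_all _ fun x => min_le_left _ _)
  exact le_min (sq_nonneg x) hM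

theorem sq_le_min_add (a M : ℝ) (hM : 0 < M) : a ^ 2 ≤ min (a ^ 2) M + a ^ 4 / M := by
  rcases le_total (a ^ 2) M with h | h
  · rw [min_eq_left h]
    have : 0 ≤ a ^ 4 / M := by positivity
    linarith
  · rw [min_eq_right h]
    have h1 : a ^ 2 ≤ a ^ 4 / M := by
      rw [le_div_iff₀ hM]
      nlinarith [sq_nonneg a]
    linarith

theorem dirCov_self' {D : Set (ℝ × ℝ)} (hb : Bornology.IsBounded D) {φ : ℝ × ℝ → ℝ}
    (hφ : TestOn univ φ) : JG.dirCov D φ φ = V D φ := by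
  have h2 := V_smulU hb hφ 2
  have h0 := V_smulU hb hφ 0
  have e2 : (fun z => φ z + φ z) = fun z => 2 * φ z := by funext z; ring
  have e0 : (fun z => φ z - φ z) = fun z => 0 * φ z := by funext z; ring
  show (V D (fun z => φ z + φ z) - V D (fun z => φ z - φ z)) / 4 = V D φ
  rw [e2, e0, h2, h0]
  ring

/-! ### The inputs -/

theorem ins_of {c : ℝ} (hc : 1 ≤ c) (hc2 : c ≤ 2) (hL : X.InOK c) (hV : X.Val c) :
    Ins c (1 / (4 * Real.arcsin (c / 2))) := by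
  have hc0 : 0 < c := by linarith only [hc]
  obtain ⟨P, κ, h⟩ := FA.exists_plIn hc hc2
  have hval := hV P κ h
  have hκ := h.κpos
  have h' : PlIn c P (4 * (κ / 4)) := by
    have e : 4 * (κ / 4) = κ := by ring
    rw [e]; exact h
  have hs' : 1 / (4 * Real.arcsin (c / 2)) = κ / 4 := by
    rw [hval, div_div, mul_comm]
  have hm : S_mono c := FK.s_mono hc
  rw [hs']
  refine ⟨hc0, by linarith only [hκ], hm, fun δ hδ hl => ?_, fun δ hδ hl => ?_, fun δ hδ hl => ?_⟩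
  · have hin := hL P (κ / 4) h' δ hδ hl
    exact key
      { cpos := hc0
        κpos := by linarith only [hκ]
        δpos := hδ
        δlim := hl
        mono := hm
        mb := hin.1
        l2 := hin.2.1
        dec := hin.2.2.1
        xst := hin.2.2.2 }
  · exact (hL P (κ / 4) h' δ hδ hl).1
  · exact (hL P (κ / 4) h' δ hδ hl).2.1

/-! ### Sufficiency -/

theorem mom_D {c κ : ℝ} (H : Ins c κ) {D : Set (ℝ × ℝ)} (hop : IsOpen D)
    (hb : Bornology.IsBounded D) (hst : StableP D) (δ : ℕ → ℝ) (F : ℕ → Finset (ℤ × ℤ))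
    (hA : ApproxF D δ F) (φ : ℝ × ℝ → ℝ) (hφ : TestOn D φ) (k : ℕ) :
    Tendsto (fun n => ze c (F n) (fun x => zf (F n) (δ n) φ x ^ k)) atTop
      (𝓝 (gm (κ * V D φ) k)) :=
  squeeze_gen H.mono hA.pos (H.key δ hA.pos hA.lim) hop hb hst
    (fun D' _ hb' hD' => approxF_in hA D' hb' hD') (approxF_out hb hA) hφ k

theorem suff_D {c κ s : ℝ} (H : Ins c κ) (hs : κ = s ^ 2 * (2 * Real.pi)) {D : Set (ℝ × ℝ)}
    (hop : IsOpen D) (hb : Bornology.IsBounded D) (hst : StableP D) :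
    LawF c⁻¹ s D (TestOn D) ∧ MomF c⁻¹ s D (TestOn D) := by
  have e1 : (1 : ℝ) / c⁻¹ = c := by rw [one_div, inv_inv]
  refine law_of_mom (T := TestOn D) (inv_pos.2 H.cpos) hs hb (fun φ hφ => hφ.mono (subset_univ _))
    (fun k φ hφ x => TestOn.sum hφ x) ?_
  rw [e1]
  exact fun δ F hA φ hφ k => mom_D H hop hb hst δ F hA φ hφ k

theorem suff_U {c κ s : ℝ} (H : Ins c κ) (hs : κ = s ^ 2 * (2 * Real.pi)) {D : Set (ℝ × ℝ)}
    (hop : IsOpen D) (hb : Bornology.IsBounded D) (hvol : volume (frontier D) = 0)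
    (hst : StableP D) : LawF c⁻¹ s D (TestOn univ) ∧ MomF c⁻¹ s D (TestOn univ) := by
  have e1 : (1 : ℝ) / c⁻¹ = c := by rw [one_div, inv_inv]
  refine law_of_mom (T := TestOn univ) (inv_pos.2 H.cpos) hs hb (fun φ hφ => hφ)
    (fun k φ hφ x => TestOn.sum hφ x) ?_
  rw [e1]
  exact fun δ F hA φ hφ k => mom_bdry H.cpos hA.pos H.mono (H.mb δ hA.pos hA.lim)
    (H.l2 δ hA.pos hA.lim) hop hb hvol (approxF_out hb hA)
    (fun ψ hψ j => mom_D H hop hb hst δ F hA ψ hψ j) hφ k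

theorem suff_P {c κ s : ℝ} (H : Ins c κ) (hs : κ = s ^ 2 * (2 * Real.pi)) {D : Set (ℝ × ℝ)}
    (hop : IsOpen D) (hb : Bornology.IsBounded D) (hst : StableP D)
    (hext : IsPreconnected (closure D)ᶜ) : Dom.Conv c⁻¹ s D := by
  have e1 : (1 : ℝ) / c⁻¹ = c := by rw [one_div, inv_inv]
  refine conv_of_mom_gen (inv_pos.2 H.cpos) hs hb fun δ N p F hA φ hφ k => ?_
  rw [e1]
  exact squeeze_gen H.mono hA.pos (H.key δ hA.pos hA.lim) hop hb hst
    (fun D' _ hb' hD' => approx_in hA D' hb' hD') (outer_gen hop hb hext hA) hφ k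

/-! ### Necessity -/

theorem bad_of {c κ : ℝ} (H : Ins c κ) {D : Set (ℝ × ℝ)} (hop : IsOpen D)
    (hb : Bornology.IsBounded D) (hst : ¬ StableP D) :
    ∃ φ : ℝ × ℝ → ℝ, TestOn D φ ∧ ∃ η : ℝ, 0 < η ∧
    ∃ (δ : ℕ → ℝ) (F : ℕ → Finset (ℤ × ℤ)), ApproxF D δ F ∧
      (∀ j, κ * (V D φ + η) ≤ ze c (F j) (fun x => zf (F j) (δ j) φ x ^ 2)) ∧
      ∃ C : ℝ, ∀ᶠ j in atTop, ze c (F j) (fun x => zf (F j) (δ j) φ x ^ 4) ≤ C := by
  unfold StableP at hst
  push Not at hst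
  obtain ⟨φ, hφ, hφ0, η, hη, hbad⟩ := hst
  exact ⟨φ, hφ, η, hη, exists_bad H hop hb hφ hφ0 hbad⟩

theorem nec_mom {c κ s : ℝ} (H : Ins c κ) (hs : κ = s ^ 2 * (2 * Real.pi)) {D : Set (ℝ × ℝ)}
    (hop : IsOpen D) (hb : Bornology.IsBounded D) (h : MomF c⁻¹ s D (TestOn D)) : StableP D := by
  by_contra hst
  obtain ⟨φ, hφ, η, hη, δ, F, hA, h2, -⟩ := bad_of H hop hb hst
  have hl := (h δ F hA φ hφ 1).1
  have e1 : (1 : ℝ) / c⁻¹ = c := by rw [one_div, inv_inv]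
  have e2 : ((2 * 1).factorial / (2 ^ 1 * (1 : ℕ).factorial) *
        (s ^ 2 * (2 * Real.pi * JG.V D φ)) ^ 1 : ℝ) = κ * V D φ := by
    show ((2 * 1).factorial / (2 ^ 1 * (1 : ℕ).factorial) *
        (s ^ 2 * (2 * Real.pi * V D φ)) ^ 1 : ℝ) = κ * V D φ
    rw [hs]
    norm_num
    ring
  rw [e2] at hl
  have h3 : κ * (V D φ + η) ≤ κ * V D φ := by
    refine ge_of_tendsto' hl fun j => ?_
    rw [hE_eq (inv_pos.2 H.cpos), e1]
    exact h2 j
  have := H.κpos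
  nlinarith

theorem nec_law {c κ s : ℝ} (H : Ins c κ) (hs : κ = s ^ 2 * (2 * Real.pi)) {D : Set (ℝ × ℝ)}
    (hop : IsOpen D) (hb : Bornology.IsBounded D) (h : LawF c⁻¹ s D (TestOn D)) : StableP D := by
  by_contra hst
  obtain ⟨φ, hφ, η, hη, δ, F, hA, h2, C, hC⟩ := bad_of H hop hb hst
  have hκ := H.κpos
  have e1 : (1 : ℝ) / c⁻¹ = c := by rw [one_div, inv_inv]
  obtain ⟨M, hM0, hMC⟩ : ∃ M : ℝ, 0 < M ∧ |C| / M < κ * η := by
    refine ⟨(|C| + 1) / (κ * η), by positivity, ?_⟩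
    rw [div_div_eq_mul_div, div_lt_iff₀ (by positivity)]
    nlinarith [mul_pos hκ hη]
  have hcont : Continuous fun y : EuclideanSpace ℝ (Fin 1) => min (y 0 ^ 2) M := by fun_prop
  set g : BoundedContinuousFunction (EuclideanSpace ℝ (Fin 1)) ℝ :=
    BoundedContinuousFunction.ofNormedAddCommGroup (fun y => min (y 0 ^ 2) M) hcont M
      (fun y => by
        rw [Real.norm_eq_abs, abs_of_nonneg (le_min (sq_nonneg _) hM0.le)]
        exact min_le_right _ _) with hg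
  obtain ⟨hpsd, hlaw⟩ := h δ F hA 1 (fun _ => φ) (fun _ => hφ)
  have hl := hlaw g
  have hb1 := gaussian_min_le hpsd hM0.le
  have hS : (Matrix.of fun _ _ : Fin 1 => s ^ 2 * (2 * Real.pi * JG.dirCov D φ φ)) 0 0
      = κ * V D φ := by
    simp only [Matrix.of_apply]
    rw [dirCov_self' hb (hφ.mono (subset_univ _)), hs]
    ring
  rw [hS] at hb1
  have hlow : ∀ᶠ j in atTop, κ * (V D φ + η) - |C| / M ≤
      hE c⁻¹ (F j) (fun Hh => g (WithLp.toLp 2 fun _ => JG.fldD (F j) Hh (δ j) φ)) := by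
    filter_upwards [hC] with j hj
    rw [hE_eq (inv_pos.2 H.cpos), e1]
    obtain ⟨μ, hprob, hint, hμ⟩ := exists_meas' H.cpos (F j)
    have q2 := h2 j
    have a2 : ze c (F j) (fun x => zf (F j) (δ j) φ x ^ 2) = ∫ ω, XX (F j) (δ j) ω φ ^ 2 ∂μ := by
      rw [hμ (fun ω => XX (F j) (δ j) ω φ ^ 2)]; rfl
    have a4 : ze c (F j) (fun x => zf (F j) (δ j) φ x ^ 4) = ∫ ω, XX (F j) (δ j) ω φ ^ 4 ∂μ := by
      rw [hμ (fun ω => XX (F j) (δ j) ω φ ^ 4)]; rfl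
    have am : ze c (F j) (fun x => g (WithLp.toLp 2 fun _ => JG.fldD (F j) (half x) (δ j) φ))
        = ∫ ω, min (XX (F j) (δ j) ω φ ^ 2) M ∂μ := by
      rw [hμ (fun ω => min (XX (F j) (δ j) ω φ ^ 2) M)]; rfl
    have hle : ∫ ω, XX (F j) (δ j) ω φ ^ 2 ∂μ ≤
        (∫ ω, min (XX (F j) (δ j) ω φ ^ 2) M ∂μ) + (∫ ω, XX (F j) (δ j) ω φ ^ 4 ∂μ) / M := by
      rw [← integral_div, ← integral_add (hint _) (hint _)]
      exact integral_mono (hint _) (hint _) fun ω => sq_le_min_add _ _ hM0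
    have h4 : (∫ ω, XX (F j) (δ j) ω φ ^ 4 ∂μ) / M ≤ |C| / M := by
      rw [← a4]
      exact div_le_div_of_nonneg_right (hj.trans (le_abs_self C)) hM0.le
    rw [a2] at q2
    show _ ≤ ze c (F j) (fun x => g (WithLp.toLp 2 fun _ => JG.fldD (F j) (half x) (δ j) φ))
    rw [am]
    linarith
  have h5 : κ * (V D φ + η) - |C| / M ≤
      ∫ y, g y ∂(multivariateGaussian 0
        (Matrix.of fun _ _ : Fin 1 => s ^ 2 * (2 * Real.pi * JG.dirCov D φ φ))) :=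
    ge_of_tendsto hl hlow
  have h6 : ∫ y, g y ∂(multivariateGaussian 0
        (Matrix.of fun _ _ : Fin 1 => s ^ 2 * (2 * Real.pi * JG.dirCov D φ φ))) ≤ κ * V D φ := hb1
  nlinarith

end Vale.Agent.P145.H8
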