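import Vale.Agent.P145.H8.Main

/-!
# P145 / H8 / Bdry : test functions which do not vanish near the boundary

If the boundary of `D` has area zero, the moments converge for all smooth functions with compact
support in the plane.
-/

namespace Vale.Agent.P145.H8

open Filter Topology Set MeasureTheory ProbabilityTheory
open Vale.Agent.P145.PT Vale.Agent.P145.FP Vale.Agent.P145.Dom Vale.Agent.P145.Top

/-! ### Comparison of moments -/

theorem cone_pmB {B : Finset (ℤ × ℤ)} {δ : ℝ} {p m : ℝ × ℝ → ℝ}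
    (hp : ∀ v ∈ B, 0 ≤ p (δ * v.1, δ * v.2)) (hm : ∀ v ∈ B, 0 ≤ m (δ * v.1, δ * v.2)) (k : ℕ) :
    Cone (fun ω => (hB B δ p ω + hB B δ m ω) ^ k + (hB B δ p ω - hB B δ m ω) ^ k) ∧
    Cone (fun ω => (hB B δ p ω + hB B δ m ω) ^ k - (hB B δ p ω - hB B δ m ω) ^ k) := by
  have hP : ∀ {g : Om → ℝ}, Cone g → Cone (fun ω => hB B δ p ω * g ω) := fun hg =>
    Pol.hB hg fun v hv => mul_nonneg (sq_nonneg _) (hp v hv)
  have hM : ∀ {g : Om → ℝ}, Cone g → Cone (fun ω => hB B δ m ω * g ω) := fun hg =>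
    Pol.hB hg fun v hv => mul_nonneg (sq_nonneg _) (hm v hv)
  induction k with
  | zero =>
    refine ⟨((Pol.one (P := fun c => 0 ≤ c)).add Pol.one).of_eq fun ω => by simp,
      Pol.zero.of_eq fun ω => by simp⟩
  | succ k ih =>
    refine ⟨((hP ih.1).add (hM ih.2)).of_eq fun ω => by ring,
      ((hP ih.2).add (hM ih.1)).of_eq fun ω => by ring⟩

theorem cone_ze_nonneg {c : ℝ} (hm : S_mono c) (F : Finset (ℤ × ℤ)) {g : Om → ℝ}
    (hg : Cone g) : 0 ≤ ze c F (fun x => g (vh x)) := by
  induction hg with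
  | mon l => exact (hm F F Finset.Subset.rfl l).1
  | zero => rw [ze_zero']
  | add _ _ h1 h2 => rw [ze_add']; exact add_nonneg h1 h2
  | smul a ha _ h1 => rw [ze_smul']; exact mul_nonneg ha h1

/-- If `|ξ| ≤ f` at the points of `B`, the moments of `ξ` are bounded by those of `f`. -/
theorem ze_le_of_abs {c : ℝ} (hm : S_mono c) {δ : ℝ} (F B : Finset (ℤ × ℤ)) {ξ f : ℝ × ℝ → ℝ}
    (h : ∀ v ∈ B, |ξ (δ * v.1, δ * v.2)| ≤ f (δ * v.1, δ * v.2)) (k : ℕ) :
    ze c F (fun x => hB B δ ξ (vh x) ^ k) ≤ ze c F (fun x => hB B δ f (vh x) ^ k) := by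
  set p : ℝ × ℝ → ℝ := fun z => (1 / 2) * (f z + ξ z) with hp
  set m : ℝ × ℝ → ℝ := fun z => (1 / 2) * (f z - ξ z) with hmd
  have hp0 : ∀ v ∈ B, 0 ≤ p (δ * v.1, δ * v.2) := by
    intro v hv
    have h1 := abs_le.1 (h v hv)
    simp only [hp]
    linarith [h1.1]
  have hm0 : ∀ v ∈ B, 0 ≤ m (δ * v.1, δ * v.2) := by
    intro v hv
    have h1 := abs_le.1 (h v hv)
    simp only [hmd]
    linarith [h1.2]
  have e1 : ∀ ω, hB B δ f ω = hB B δ p ω + hB B δ m ω := by
    intro ω
    rw [← hB_add]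
    congr 1
    funext z
    simp only [hp, hmd]
    ring
  have e2 : ∀ ω, hB B δ ξ ω = hB B δ p ω - hB B δ m ω := by
    intro ω
    rw [← hB_sub]
    congr 1
    funext z
    simp only [hp, hmd]
    ring
  have h1 := cone_ze_nonneg hm F (cone_pmB hp0 hm0 k).2
  have h2 : ze c F (fun x => (hB B δ p (vh x) + hB B δ m (vh x)) ^ k
      - (hB B δ p (vh x) - hB B δ m (vh x)) ^ k)
      = ze c F (fun x => hB B δ f (vh x) ^ k) - ze c F (fun x => hB B δ ξ (vh x) ^ k) := by
    simp_rw [e1, e2]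
    have h3 := ze_add' c F (fun x => (hB B δ p (vh x) + hB B δ m (vh x)) ^ k)
      (fun x => (-1) * (hB B δ p (vh x) - hB B δ m (vh x)) ^ k)
    rw [ze_smul'] at h3
    have h4 : (fun x : Site → ℤ => (hB B δ p (vh x) + hB B δ m (vh x)) ^ k
      - (hB B δ p (vh x) - hB B δ m (vh x)) ^ k) = fun x =>
      (hB B δ p (vh x) + hB B δ m (vh x)) ^ k
      + (-1) * (hB B δ p (vh x) - hB B δ m (vh x)) ^ k := by funext x; ring
    rw [h4, h3]; ring
  rw [h2] at h1
  linarith

theorem zf_eq_hB (F : Finset (ℤ × ℤ)) (δ : ℝ) (φ : ℝ × ℝ → ℝ) (x : Site → ℤ) :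
    zf F δ φ x = hB (verts F) δ φ (vh x) := rfl

/-- The moments of a nonnegative function are bounded by those in a larger set of faces. -/
theorem ze_verts_le {c : ℝ} (hm : S_mono c) {δ : ℝ} (hδ : 0 < δ) {F F' : Finset (ℤ × ℤ)}
    (hFF' : F ⊆ F') {f : ℝ × ℝ → ℝ} (hf : HasCompactSupport f) (hf0 : ∀ z, 0 ≤ f z) (k : ℕ) :
    ze c F (fun x => hB (verts F) δ f (vh x) ^ k) ≤ ze c F' (fun x => hv δ f (vh x) ^ k) := by
  obtain ⟨B, hB'⟩ := exists_hB hδ hf
  have e : ze c F (fun x => hB (verts F) δ f (vh x) ^ k)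
      = ze c F (fun x => hv δ f (vh x) ^ k) := by
    refine ze_congr' c F fun x hx => ?_
    rw [← zf_eq_hB, zf_eq_hv hx]
  rw [e]
  have e2 : ∀ ω, hv δ f ω = Top.hB B δ f ω := hB' B Finset.Subset.rfl
  simp_rw [e2]
  refine cone_ze_mono hm hFF' (g := fun ω => Top.hB B δ f ω ^ k) ?_
  clear e
  induction k with
  | zero => exact (Pol.one (P := fun c => 0 ≤ c)).of_eq fun ω => by simp
  | succ k ih => exact (Cone.hB (B := B) (δ := δ) ih hf0).of_eq fun ω => by ring

/-! ### Elementary inequalities -/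

theorem pow_diff_le (a b lam : ℝ) (hl : 0 < lam) (m : ℕ) :
    |(a + b) ^ (m + 1) - a ^ (m + 1)|
      ≤ ((m : ℝ) + 1) / 2 * (b ^ 2 / lam + lam * ((a + b) ^ (2 * m) + a ^ (2 * m))) := by
  have h1 := abs_pow_sub_pow_le (a + b) a (m + 1)
  have e1 : a + b - a = b := by ring
  rw [e1, Nat.add_sub_cancel] at h1
  set M : ℝ := max |a + b| |a| with hM
  have hM0 : 0 ≤ M := le_max_of_le_left (abs_nonneg _)
  have h2 : M ^ (2 * m) ≤ (a + b) ^ (2 * m) + a ^ (2 * m) := by
    have k1 : 0 ≤ (a + b) ^ (2 * m) := by rw [pow_mul]; positivity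
    have k2 : 0 ≤ a ^ (2 * m) := by rw [pow_mul]; positivity
    rcases max_choice |a + b| |a| with h | h
    · have : M ^ (2 * m) = (a + b) ^ (2 * m) := by
        rw [hM, h, pow_mul, sq_abs, ← pow_mul]
      linarith
    · have : M ^ (2 * m) = a ^ (2 * m) := by
        rw [hM, h, pow_mul, sq_abs, ← pow_mul]
      linarith
  have h3 : |b| * M ^ m ≤ (b ^ 2 / lam + lam * M ^ (2 * m)) / 2 := by
    have k1 : 0 ≤ (|b| - lam * M ^ m) ^ 2 := sq_nonneg _
    have k2 : (|b| - lam * M ^ m) ^ 2 = b ^ 2 - 2 * lam * (|b| * M ^ m)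
        + lam ^ 2 * M ^ (2 * m) := by
      rw [← sq_abs b]; ring
    rw [k2] at k1
    rw [div_add' _ _ _ hl.ne', div_div, le_div_iff₀ (by positivity)]
    nlinarith
  calc |(a + b) ^ (m + 1) - a ^ (m + 1)| ≤ |b| * ((m + 1 : ℕ) : ℝ) * M ^ m := h1
    _ = ((m : ℝ) + 1) * (|b| * M ^ m) := by push_cast; ring
    _ ≤ ((m : ℝ) + 1) * ((b ^ 2 / lam + lam * M ^ (2 * m)) / 2) :=
        mul_le_mul_of_nonneg_left h3 (by positivity)
    _ ≤ ((m : ℝ) + 1) * ((b ^ 2 / lam + lam * ((a + b) ^ (2 * m) + a ^ (2 * m))) / 2) := by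
        refine mul_le_mul_of_nonneg_left ?_ (by positivity)
        have := mul_le_mul_of_nonneg_left h2 hl.le
        linarith
    _ = _ := by ring

/-- Quadratic inequality for `V`. -/
theorem V_add_le {D : Set (ℝ × ℝ)} (hD : Bornology.IsBounded D) {a b : ℝ × ℝ → ℝ}
    (ha : TestOn univ a) (hb : TestOn univ b) {e : ℝ} (he : 0 < e) :
    V D (fun z => a z + b z) ≤ (1 + e) * V D a + (1 + 1 / e) * V D b := by
  refine V_le fun ψ hψ => ?_
  have hA := le_V hD ha (hψ.smul (1 / (1 + e)))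
  have hB := le_V hD hb (hψ.smul (e / (1 + e)))
  rw [energy_smul' hψ] at hA hB
  have e1 : ∀ (f : ℝ × ℝ → ℝ) (t : ℝ), ∫ z, f z * (t * ψ z) = t * ∫ z, f z * ψ z := by
    intro f t
    rw [← integral_const_mul]
    congr 1; funext z; ring
  rw [e1] at hA hB
  have e2 : ∫ z, (a z + b z) * ψ z = (∫ z, a z * ψ z) + ∫ z, b z * ψ z := by
    rw [← integral_add (ha.intMul hψ.cont) (hb.intMul hψ.cont)]
    congr 1; funext z; ring
  rw [e2]
  set I := ∫ z, a z * ψ z
  set J := ∫ z, b z * ψ z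
  set E := energy ψ
  have h1e : 0 < 1 + e := by linarith
  have k1 := mul_le_mul_of_nonneg_left hA h1e.le
  have k2 := mul_le_mul_of_nonneg_left hB (show 0 ≤ (1 + e) / e by positivity)
  have e3 : (1 + e) * (2 * (1 / (1 + e) * I) - (1 / (1 + e)) ^ 2 * E) = 2 * I - E / (1 + e) := by
    field_simp
  have e4 : (1 + e) / e * (2 * (e / (1 + e) * J) - (e / (1 + e)) ^ 2 * E)
      = 2 * J - e * E / (1 + e) := by
    field_simp
  have e5 : E = E / (1 + e) + e * E / (1 + e) := by field_simp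
  have e6 : (1 + e) / e = 1 + 1 / e := by field_simp; ring
  rw [e3] at k1
  rw [e4, e6] at k2
  linarith

/-- `V D b` is small if `|b| ≤ f` on `D` and `∫ f²` is small. -/
theorem V_le_L2 {D : Set (ℝ × ℝ)} (hop : IsOpen D) {R : ℝ} (hR : ∀ z ∈ D, |z.1| ≤ R)
    {b f : ℝ × ℝ → ℝ} (hb : TestOn univ b) (hf : TestOn univ f) (h : ∀ z ∈ D, |b z| ≤ f z) :
    V D b ≤ 4 * R ^ 2 * ∫ z, f z ^ 2 := by
  refine V_le fun ψ hψ => ?_
  have e1 : ∫ z, b z * ψ z = ∫ z, D.indicator b z * ψ z := by
    congr 1; funext z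
    by_cases hz : z ∈ D
    · rw [indicator_of_mem hz]
    · have : ψ z = 0 := by
        by_contra hne
        exact hz (hψ.2.2 (subset_tsupport _ hne))
      rw [this]; simp
  have e2 : ∀ z, D.indicator b z ^ 2 = D.indicator (fun z => b z ^ 2) z := by
    intro z
    by_cases hz : z ∈ D
    · rw [indicator_of_mem hz, indicator_of_mem hz]
    · rw [indicator_of_notMem hz, indicator_of_notMem hz]; simp
  have hint : Integrable fun z => D.indicator b z ^ 2 := by
    simp_rw [e2]
    exact hb.intSq.indicator hop.measurableSet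
  rw [e1]
  refine (functional_le hR hint (hb.cont.aestronglyMeasurable.indicator hop.measurableSet)
    hψ).trans ?_
  refine mul_le_mul_of_nonneg_left ?_ (by positivity)
  refine integral_mono hint hf.intSq fun z => ?_
  simp only
  by_cases hz : z ∈ D
  · rw [indicator_of_mem hz]
    exact sq_le_sq' (by linarith [(abs_le.1 (h z hz)).1]) (abs_le.1 (h z hz)).2
  · rw [indicator_of_notMem hz]
    have := sq_nonneg (f z)
    simpa using this

/-! ### The splitting of a test function -/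

/-- A smooth function is `χ φ` with compact support in `D` up to an error dominated near the
closure of `D` by a function with small `L²` norm. -/
theorem exists_split {D : Set (ℝ × ℝ)} (hop : IsOpen D) (hb : Bornology.IsBounded D)
    (hvol : volume (frontier D) = 0) {φ : ℝ × ℝ → ℝ} (hφ : TestOn univ φ) {R : ℝ}
    (hR : closure D ⊆ Metric.ball 0 R) {η : ℝ} (hη : 0 < η) :
    ∃ (a b f : ℝ × ℝ → ℝ) (D' : Set (ℝ × ℝ)), TestOn D a ∧ TestOn univ b ∧
      (∀ z, φ z = a z + b z) ∧ (∀ z, |a z| ≤ |φ z|) ∧ TestOn (Metric.ball 0 R) f ∧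
      (∀ z, 0 ≤ f z) ∧ ∫ z, f z ^ 2 ≤ η ∧ IsOpen D' ∧ D' ⊆ Metric.ball 0 R ∧ closure D ⊆ D' ∧
      ∀ z ∈ D', |b z| ≤ f z := by
  obtain ⟨M, hM0, hM⟩ : ∃ M : ℝ, 0 ≤ M ∧ ∀ z, |φ z| ≤ M := by
    obtain ⟨M, hM⟩ := hφ.cs.exists_bound_of_continuous hφ.cont
    exact ⟨M, (norm_nonneg _).trans (hM 0), hM⟩
  -- the scale
  set r : ℕ → ℝ := fun j => 1 / ((j : ℝ) + 1) with hr
  have hr0 : ∀ j, 0 < r j := fun j => by positivity
  have hrt : Tendsto r atTop (𝓝 0) := tendsto_one_div_add_atTop_nhds_zero_nat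
  have hranti : Antitone r := by
    intro i j hij
    simp only [hr]
    have : (i : ℝ) ≤ j := by exact_mod_cast hij
    exact one_div_le_one_div_of_le (by positivity) (by linarith)
  set S : ℕ → Set (ℝ × ℝ) := fun j => Metric.thickening (r j) D ∩ {z | dd D z < r j} with hS
  have hSo : ∀ j, IsOpen (S j) := fun j =>
    Metric.isOpen_thickening.inter (isOpen_lt (dd_cont D) continuous_const)
  have hSanti : Antitone S := by
    intro i j hij z hz
    exact ⟨Metric.thickening_mono (hranti hij) D hz.1, lt_of_lt_of_le hz.2 (hranti hij)⟩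
  have hSi : ⋂ j, S j ⊆ frontier D := by
    intro z hz
    rw [mem_iInter] at hz
    rw [hop.frontier_eq]
    constructor
    · rw [Metric.closure_eq_iInter_thickening, mem_iInter₂]
      intro e he
      obtain ⟨j, hj⟩ := ((hrt.eventually (gt_mem_nhds he)).exists)
      exact Metric.thickening_mono hj.le D (hz j).1
    · intro hzD
      have h1 : 0 < dd D z := (dd_pos hop hb).2 hzD
      obtain ⟨j, hj⟩ := ((hrt.eventually (gt_mem_nhds h1)).exists)
      exact absurd (hz j).2 (not_lt.2 hj.le)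
  have hfin : volume (S 0) ≠ ⊤ :=
    ((hb.thickening.subset inter_subset_left).measure_lt_top).ne
  have hlim : Tendsto (fun j => volume (S j)) atTop (𝓝 0) := by
    have h1 := tendsto_measure_iInter_atTop (μ := volume) (s := S)
      (fun j => (hSo j).measurableSet.nullMeasurableSet) hSanti ⟨0, hfin⟩
    have h2 : volume (⋂ j, S j) = 0 := measure_mono_null hSi hvol
    rwa [h2] at h1
  obtain ⟨s₀, hs₀, hs₀R⟩ := hb.isCompact_closure.exists_thickening_subset_open
    Metric.isOpen_ball hR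
  obtain ⟨j, hj1, hj2⟩ : ∃ j, volume (S j) ≤ ENNReal.ofReal (η / (M ^ 2 + 1)) ∧ r j < s₀ := by
    have h1 : ∀ᶠ j in atTop, volume (S j) < ENNReal.ofReal (η / (M ^ 2 + 1)) :=
      hlim.eventually (gt_mem_nhds (by rw [ENNReal.ofReal_pos]; positivity))
    obtain ⟨j, h⟩ := (h1.and (hrt.eventually (gt_mem_nhds hs₀))).exists
    exact ⟨j, h.1.le, h.2⟩
  set ρ : ℝ := r j with hρ
  have hρ0 : 0 < ρ := hr0 j
  set T : Set (ℝ × ℝ) := Metric.thickening ρ D with hT
  have hTo : IsOpen T := Metric.isOpen_thickening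
  have hTb : Bornology.IsBounded T := hb.thickening
  have hTR : T ⊆ Metric.ball 0 R :=
    ((Metric.thickening_mono hj2.le D).trans
      (Metric.thickening_subset_of_subset s₀ subset_closure)).trans hs₀R
  obtain ⟨χ, hχs, hχ01, hχ0, hχ1⟩ := exists_cutoff D (show ρ / 2 < ρ by linarith)
  obtain ⟨θ, hθs, hθ01, hθ0, hθ1⟩ := exists_cutoff T (show ρ / 4 < ρ / 2 by linarith)
  have hχsupp : tsupport χ ⊆ D := by
    have h1 : tsupport χ ⊆ {x | ρ / 2 ≤ dd D x} := by
      refine closure_minimal ?_ (isClosed_le continuous_const (dd_cont D))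
      intro x hx
      by_contra hcon
      exact hx (hχ0 x (not_le.1 hcon).le)
    intro z hz
    have h2 : ρ / 2 ≤ dd D z := h1 hz
    exact (dd_pos hop hb).1 (by linarith)
  have hθsupp : tsupport θ ⊆ T := by
    have h1 : tsupport θ ⊆ {x | ρ / 4 ≤ dd T x} := by
      refine closure_minimal ?_ (isClosed_le continuous_const (dd_cont T))
      intro x hx
      by_contra hcon
      exact hx (hθ0 x (not_le.1 hcon).le)
    intro z hz
    have h2 : ρ / 4 ≤ dd T z := h1 hz
    exact (dd_pos hTo hTb).1 (by linarith)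
  -- the inner region of the thickening
  have hin : ∀ z ∈ Metric.thickening (ρ / 2) D, ρ / 2 ≤ dd T z := by
    intro z hz
    obtain ⟨w, hw, hzw⟩ := Metric.mem_thickening_iff.1 hz
    refine (Metric.le_infDist (compl_ne hTb)).2 fun y hy => ?_
    have h1 : ρ ≤ dist y w := by
      by_contra hcon
      exact hy (Metric.mem_thickening_iff.2 ⟨w, hw, not_le.1 hcon⟩)
    have h2 := dist_triangle y z w
    rw [dist_comm y z] at h2
    linarith
  set f : ℝ × ℝ → ℝ := fun z => M * ((1 - χ z) * θ z) with hf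
  have hθc : HasCompactSupport θ :=
    HasCompactSupport.of_support_subset_isCompact
      (hTb.isCompact_closure) ((subset_tsupport θ).trans (hθsupp.trans subset_closure))
  have hfT : TestOn (Metric.ball 0 R) f := by
    have h1 : TestOn (Metric.ball 0 R) θ := ⟨hθs, hθc, hθsupp.trans hTR⟩
    exact (h1.mulSm (contDiff_const.sub hχs)).smul M
  have hf0 : ∀ z, 0 ≤ f z := fun z => mul_nonneg hM0
    (mul_nonneg (by linarith [(hχ01 z).2]) (hθ01 z).1)
  refine ⟨fun z => χ z * φ z, fun z => (1 - χ z) * φ z, f, Metric.thickening (ρ / 2) D,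
    ?_, ?_, fun z => by ring, fun z => ?_, hfT, hf0, ?_, Metric.isOpen_thickening,
    (Metric.thickening_mono (by linarith) D).trans hTR, Metric.closure_subset_thickening
      (by linarith) D, fun z hz => ?_⟩
  · have h1 : TestOn univ (fun z => χ z * φ z) := hφ.mulSm hχs
    exact ⟨h1.1, h1.2.1, (tsupport_mul_subset_left).trans hχsupp⟩
  · exact hφ.mulSm (contDiff_const.sub hχs)
  · rw [abs_mul, abs_of_nonneg (hχ01 z).1]
    exact mul_le_of_le_one_left (abs_nonneg _) (hχ01 z).2
  · -- the L² norm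
    have hpt : ∀ z, f z ^ 2 ≤ (S j).indicator (fun _ => M ^ 2) z := by
      intro z
      by_cases hz : z ∈ S j
      · rw [indicator_of_mem hz]
        have h1 : (1 - χ z) * θ z ≤ 1 := by
          have k1 := (hθ01 z).2
          have k2 := (hχ01 z).1
          have k3 := (hθ01 z).1
          have k4 := (hχ01 z).2
          nlinarith
        have h2 : f z ≤ M := by
          simp only [hf]
          exact mul_le_of_le_one_right hM0 h1
        exact pow_le_pow_left₀ (hf0 z) h2 2
      · rw [indicator_of_notMem hz]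
        have : f z = 0 := by
          simp only [hf]
          by_cases h1 : z ∈ T
          · have h2 : ρ ≤ dd D z := by
              by_contra hcon
              exact hz ⟨h1, not_le.1 hcon⟩
            rw [hχ1 z h2]; simp
          · have h2 : θ z = 0 := by
              by_contra hne
              exact h1 (hθsupp (subset_tsupport _ hne))
            rw [h2]; simp
        rw [this]; simp
    have hSfin : volume (S j) ≠ ⊤ := ((hb.thickening.subset inter_subset_left).measure_lt_top).ne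
    calc ∫ z, f z ^ 2 ≤ ∫ z, (S j).indicator (fun _ => M ^ 2) z := by
          refine integral_mono hfT.intSq ?_ hpt
          exact (integrable_indicator_iff (hSo j).measurableSet).2
            (integrableOn_const hSfin)
      _ = volume.real (S j) * M ^ 2 := by
          rw [integral_indicator (hSo j).measurableSet, setIntegral_const, smul_eq_mul]
      _ ≤ η / (M ^ 2 + 1) * M ^ 2 := by
          refine mul_le_mul_of_nonneg_right ?_ (sq_nonneg M)
          exact ENNReal.toReal_le_of_le_ofReal (by positivity) hj1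
      _ ≤ η := by
          rw [div_mul_eq_mul_div, div_le_iff₀ (by positivity)]
          nlinarith
  · have h1 : θ z = 1 := hθ1 z (hin z hz)
    simp only [hf]
    rw [h1, mul_one, abs_mul, abs_of_nonneg (show 0 ≤ 1 - χ z by linarith [(hχ01 z).2]),
      mul_comm M]
    exact mul_le_mul_of_nonneg_left (hM z) (by linarith [(hχ01 z).2])

end Vale.Agent.P145.H8
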