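import Vale.Agent.P145.H8.Bdry

/-!
# P145 / H8 / Bdry2 : convergence of the moments up to the boundary
-/

namespace Vale.Agent.P145.H8

open Filter Topology Set MeasureTheory ProbabilityTheory
open Vale.Agent.P145.PT Vale.Agent.P145.FP Vale.Agent.P145.Dom Vale.Agent.P145.Top

/-- The difference of the moments of `φ = a + b` and `a`. -/
theorem mom_diff {c : ℝ} (hc : 0 < c) (F : Finset (ℤ × ℤ)) (B : Finset (ℤ × ℤ)) (δ : ℝ)
    {φ a b : ℝ × ℝ → ℝ} (hab : ∀ z, φ z = a z + b z) {lam : ℝ} (hl : 0 < lam) (m : ℕ)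
    {C e : ℝ} (h1 : ze c F (fun x => hB B δ φ (vh x) ^ (2 * m)) ≤ C)
    (h2 : ze c F (fun x => hB B δ a (vh x) ^ (2 * m)) ≤ C)
    (h3 : ze c F (fun x => hB B δ b (vh x) ^ 2) ≤ e) :
    |ze c F (fun x => hB B δ φ (vh x) ^ (m + 1)) - ze c F (fun x => hB B δ a (vh x) ^ (m + 1))|
      ≤ ((m : ℝ) + 1) / 2 * (e / lam + lam * (2 * C)) := by
  obtain ⟨μ, hprob, hint, hμ⟩ := exists_meas' hc F
  rw [← hμ (fun ω => hB B δ φ ω ^ (m + 1)), ← hμ (fun ω => hB B δ a ω ^ (m + 1)),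
    ← integral_sub (hint _) (hint _)]
  rw [← hμ (fun ω => hB B δ φ ω ^ (2 * m))] at h1
  rw [← hμ (fun ω => hB B δ a ω ^ (2 * m))] at h2
  rw [← hμ (fun ω => hB B δ b ω ^ 2)] at h3
  have hφe : ∀ ω, hB B δ φ ω = hB B δ a ω + hB B δ b ω := by
    intro ω
    rw [← hB_add]
    congr 1
    funext z
    exact hab z
  calc |∫ ω, (hB B δ φ ω ^ (m + 1) - hB B δ a ω ^ (m + 1)) ∂μ|
      ≤ ∫ ω, |hB B δ φ ω ^ (m + 1) - hB B δ a ω ^ (m + 1)| ∂μ := abs_integral_le_integral_abs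
    _ ≤ ∫ ω, ((m : ℝ) + 1) / 2 * (hB B δ b ω ^ 2 / lam
          + lam * (hB B δ φ ω ^ (2 * m) + hB B δ a ω ^ (2 * m))) ∂μ := by
        refine integral_mono (hint _) (hint _) fun ω => ?_
        simp only [hφe ω]
        exact pow_diff_le _ _ lam hl m
    _ = ((m : ℝ) + 1) / 2 * ((∫ ω, hB B δ b ω ^ 2 ∂μ) / lam
          + lam * ((∫ ω, hB B δ φ ω ^ (2 * m) ∂μ) + ∫ ω, hB B δ a ω ^ (2 * m) ∂μ)) := by
        rw [integral_const_mul, integral_add (hint _) (hint _), integral_div, integral_const_mul,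
          integral_add (hint _) (hint _)]
    _ ≤ _ := by
        refine mul_le_mul_of_nonneg_left ?_ (by positivity)
        refine add_le_add (div_le_div_of_nonneg_right h3 hl.le) ?_
        refine mul_le_mul_of_nonneg_left ?_ hl.le
        linarith

/-- A nonnegative test function of the plane which dominates `|φ|`. -/
theorem exists_dominate {φ : ℝ × ℝ → ℝ} (hφ : TestOn univ φ) :
    ∃ g : ℝ × ℝ → ℝ, TestOn univ g ∧ (∀ z, 0 ≤ g z) ∧ ∀ z, |φ z| ≤ g z := by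
  obtain ⟨R, hR⟩ := hφ.cs.isBounded.subset_ball (0 : ℝ × ℝ)
  have h1 : TestOn (Metric.ball 0 R) φ := ⟨hφ.1, hφ.2.1, hR⟩
  obtain ⟨p, m, hp, hm, hp0, hm0, hpm⟩ := exists_decomp Metric.isOpen_ball Metric.isBounded_ball h1
  refine ⟨fun z => p z + m z, (hp.add hm).mono (subset_univ _),
    fun z => add_nonneg (hp0 z) (hm0 z), fun z => ?_⟩
  rw [hpm z]
  have k1 := hp0 z
  have k2 := hm0 z
  exact abs_le.2 ⟨by linarith, by linarith⟩

/-- The vertices of the squares contained in `D'` are in `D'`. -/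
theorem vert_mem {δ : ℝ} (hδ : 0 < δ) {D' : Set (ℝ × ℝ)} (hb : Bornology.IsBounded D')
    {F : Finset (ℤ × ℤ)} (hF : F ⊆ Fs δ D') {v : ℤ × ℤ} (hv : v ∈ verts F) :
    ((δ * v.1, δ * v.2) : ℝ × ℝ) ∈ D' := by
  have key : ∀ f ∈ F, ∀ a b : ℤ, (a = 0 ∨ a = 1) → (b = 0 ∨ b = 1) →
      ((δ * ((f.1 + a : ℤ) : ℝ), δ * ((f.2 + b : ℤ) : ℝ)) : ℝ × ℝ) ∈ D' := by
    intro f hf a b ha hb'
    have h1 := (Top.mem_Fs hδ hb).1 (hF hf)
    refine h1 ⟨?_, ?_, ?_, ?_⟩ <;> push_cast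
    · rcases ha with rfl | rfl <;> push_cast <;> nlinarith
    · rcases ha with rfl | rfl <;> push_cast <;> nlinarith
    · rcases hb' with rfl | rfl <;> push_cast <;> nlinarith
    · rcases hb' with rfl | rfl <;> push_cast <;> nlinarith
  unfold verts at hv
  simp only [Finset.mem_union, Finset.mem_image] at hv
  rcases hv with ((hv | ⟨f, hf, rfl⟩) | ⟨f, hf, rfl⟩) | ⟨f, hf, rfl⟩
  · have := key v hv 0 0 (Or.inl rfl) (Or.inl rfl)
    simpa using this
  · have := key f hf 1 0 (Or.inr rfl) (Or.inl rfl)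
    simpa using this
  · have := key f hf 0 1 (Or.inl rfl) (Or.inr rfl)
    simpa using this
  · have := key f hf 1 1 (Or.inr rfl) (Or.inr rfl)
    simpa using this

theorem mom_bdry {c κ : ℝ} {δ : ℕ → ℝ} (hc : 0 < c) (hδ : ∀ n, 0 < δ n) (hm : S_mono c)
    (hmb : S_mb c δ) (hl2 : S_l2 c δ) {D : Set (ℝ × ℝ)} (hop : IsOpen D)
    (hb : Bornology.IsBounded D) (hvol : volume (frontier D) = 0) {F : ℕ → Finset (ℤ × ℤ)}
    (hout : ∀ D' : Set (ℝ × ℝ), IsOpen D' → Bornology.IsBounded D' → closure D ⊆ D' →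
      ∀ᶠ n in atTop, F n ⊆ Fs (δ n) D')
    (hin : ∀ φ : ℝ × ℝ → ℝ, TestOn D φ → ∀ k : ℕ,
      Tendsto (fun n => ze c (F n) (fun x => zf (F n) (δ n) φ x ^ k)) atTop
        (𝓝 (gm (κ * V D φ) k)))
    {φ : ℝ × ℝ → ℝ} (hφ : TestOn univ φ) (k : ℕ) :
    Tendsto (fun n => ze c (F n) (fun x => zf (F n) (δ n) φ x ^ k)) atTop
      (𝓝 (gm (κ * V D φ) k)) := by
  -- the constant moment
  rcases Nat.eq_zero_or_pos k with rfl | hk
  · have h0 := hin (fun _ => 0) (TestOn.zero D) 0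
    simp only [pow_zero] at h0 ⊢
    exact h0
  obtain ⟨m, rfl⟩ : ∃ m, k = m + 1 := ⟨k - 1, by omega⟩
  -- the ball
  obtain ⟨R, hR0, hRcl⟩ : ∃ R : ℝ, 0 < R ∧ closure D ⊆ Metric.ball 0 R := by
    obtain ⟨R, hR⟩ := hb.closure.subset_ball (0 : ℝ × ℝ)
    exact ⟨max R 1, lt_max_of_lt_right one_pos, hR.trans (Metric.ball_subset_ball (le_max_left _ _))⟩
  have hRfst : ∀ z ∈ D, |z.1| ≤ R := by
    intro z hz
    have h1 := mem_ball_zero_iff.1 (hRcl (subset_closure hz))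
    have h2 := norm_fst_le z
    rw [Real.norm_eq_abs] at h2
    linarith
  -- the constants
  obtain ⟨g, hg, hg0, hφg⟩ := exists_dominate hφ
  obtain ⟨C, hC⟩ := hmb (Metric.ball 0 R) Metric.isOpen_ball Metric.isBounded_ball g hg hg0 (2 * m)
  obtain ⟨C₂, hC₂0, hC₂⟩ := hl2 R hR0
  rw [Metric.tendsto_nhds]
  intro ε hε
  -- continuity of the Gaussian moments
  obtain ⟨η1, hη1, hc1⟩ := Metric.continuous_iff.1
    ((gm_cont (m + 1)).1.comp (continuous_const.mul continuous_id : Continuous fun v : ℝ => κ * v))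
    (V D φ) (ε / 3) (by positivity)
  set v := V D φ with hv'
  have hv0 : 0 ≤ v := V_nonneg hb hφ
  -- the parameters
  obtain ⟨e, he0, he1, hev⟩ : ∃ e : ℝ, 0 < e ∧ e ≤ 1 ∧ 2 * e * v < η1 / 2 := by
    refine ⟨min 1 (η1 / (4 * (v + 1)) / 2), lt_min one_pos (by positivity), min_le_left _ _, ?_⟩
    have h1 : min 1 (η1 / (4 * (v + 1)) / 2) ≤ η1 / (4 * (v + 1)) / 2 := min_le_right _ _
    have h2 : 2 * (η1 / (4 * (v + 1)) / 2) * v < η1 / 2 := by
      have e2 : 2 * (η1 / (4 * (v + 1)) / 2) * v = η1 * v / (4 * (v + 1)) := by ring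
      rw [e2, div_lt_iff₀ (by positivity)]
      nlinarith
    have h3 : 2 * min 1 (η1 / (4 * (v + 1)) / 2) * v ≤ 2 * (η1 / (4 * (v + 1)) / 2) * v :=
      mul_le_mul_of_nonneg_right (by linarith) hv0
    linarith
  obtain ⟨lam, hl0, hlC⟩ : ∃ lam : ℝ, 0 < lam ∧
      ((m : ℝ) + 1) / 2 * (lam * (2 * |C|)) < ε / 6 := by
    refine ⟨ε / (12 * ((m : ℝ) + 1) * (|C| + 1)), by positivity, ?_⟩
    have e2 : ((m : ℝ) + 1) / 2 * (ε / (12 * ((m : ℝ) + 1) * (|C| + 1)) * (2 * |C|))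
        = ε * |C| / (12 * (|C| + 1)) := by
      field_simp
    rw [e2, div_lt_iff₀ (by positivity)]
    nlinarith [abs_nonneg C]
  set τ : ℝ := ε * lam / (6 * ((m : ℝ) + 1)) with hτ
  have hτ0 : 0 < τ := by positivity
  obtain ⟨η, hη0, hη2, hη3⟩ : ∃ η : ℝ, 0 < η ∧ C₂ * η ≤ τ / 2 ∧
      2 * (1 + 1 / e) * (4 * R ^ 2 * η) < η1 / 2 := by
    refine ⟨min (τ / 2 / (C₂ + 1)) (η1 / 2 / (2 * (1 + 1 / e) * (4 * R ^ 2)) / 2),
      lt_min (by positivity) (by positivity), ?_, ?_⟩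
    · calc C₂ * min (τ / 2 / (C₂ + 1)) (η1 / 2 / (2 * (1 + 1 / e) * (4 * R ^ 2)) / 2)
          ≤ C₂ * (τ / 2 / (C₂ + 1)) := mul_le_mul_of_nonneg_left (min_le_left _ _) hC₂0
        _ ≤ τ / 2 := by
          rw [mul_div_assoc', div_le_iff₀ (by positivity)]
          nlinarith
    · have h1 : min (τ / 2 / (C₂ + 1)) (η1 / 2 / (2 * (1 + 1 / e) * (4 * R ^ 2)) / 2)
          ≤ η1 / 2 / (2 * (1 + 1 / e) * (4 * R ^ 2)) / 2 := min_le_right _ _
      have hK : 0 < 2 * (1 + 1 / e) * (4 * R ^ 2) := by positivity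
      calc 2 * (1 + 1 / e) * (4 * R ^ 2 *
            min (τ / 2 / (C₂ + 1)) (η1 / 2 / (2 * (1 + 1 / e) * (4 * R ^ 2)) / 2))
          = 2 * (1 + 1 / e) * (4 * R ^ 2) *
            min (τ / 2 / (C₂ + 1)) (η1 / 2 / (2 * (1 + 1 / e) * (4 * R ^ 2)) / 2) := by ring
        _ ≤ 2 * (1 + 1 / e) * (4 * R ^ 2) *
            (η1 / 2 / (2 * (1 + 1 / e) * (4 * R ^ 2)) / 2) :=
            mul_le_mul_of_nonneg_left h1 hK.le
        _ = η1 / 4 := by field_simp; ring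
        _ < η1 / 2 := by linarith
  -- the splitting
  obtain ⟨a, b, f, D', ha, hbt, hab, haφ, hf, hf0, hfL, hD'o, hD'R, hD'cl, hbf⟩ :=
    exists_split hop hb hvol hφ hRcl hη0
  have haU : TestOn univ a := ha.mono (subset_univ _)
  -- the forms
  have hβ : V D b ≤ 4 * R ^ 2 * η := by
    refine (V_le_L2 hop hRfst hbt (hf.mono (subset_univ _)) fun z hz =>
      hbf z (hD'cl (subset_closure hz))).trans ?_
    exact mul_le_mul_of_nonneg_left hfL (by positivity)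
  have hβ0 : 0 ≤ V D b := V_nonneg hb hbt
  have hw0 : 0 ≤ V D a := V_nonneg hb haU
  have hk0 : 0 < 1 + 1 / e := by positivity
  have q1 : v ≤ (1 + e) * V D a + (1 + 1 / e) * V D b := by
    have h1 := V_add_le hb haU hbt he0
    have e2 : (fun z => a z + b z) = φ := by funext z; rw [hab z]
    rw [e2] at h1
    exact h1
  have q2 : V D a ≤ (1 + e) * v + (1 + 1 / e) * V D b := by
    have h1 := V_add_le hb hφ (hbt.smul (-1)) he0
    have e2 : (fun z => φ z + -1 * b z) = a := by funext z; rw [hab z]; ring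
    rw [e2, V_smulU hb hbt (-1)] at h1
    have e3 : ((-1 : ℝ)) ^ 2 * V D b = V D b := by ring
    rw [e3] at h1
    exact h1
  have hβk : (1 + 1 / e) * V D b ≤ (1 + 1 / e) * (4 * R ^ 2 * η) :=
    mul_le_mul_of_nonneg_left hβ hk0.le
  have hdist : dist (V D a) v < η1 := by
    rw [Real.dist_eq, abs_lt]
    set K := (1 + 1 / e) * V D b with hK
    have hK0 : 0 ≤ K := mul_nonneg hk0.le hβ0
    have hK2 : 2 * K < η1 / 2 := by
      have : 2 * K ≤ 2 * (1 + 1 / e) * (4 * R ^ 2 * η) := by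
        have := mul_le_mul_of_nonneg_left hβk (show (0 : ℝ) ≤ 2 by norm_num)
        linarith
      linarith
    have hev1 : e * v ≤ 2 * e * v := by nlinarith
    constructor
    · -- `v - V a < η1`
      have h1 : e * V D a ≤ e * ((1 + e) * v + K) := mul_le_mul_of_nonneg_left q2 he0.le
      have h2 : e * ((1 + e) * v + K) ≤ 2 * e * v + K := by
        have k1 : e * e * v ≤ e * v := by
          have := mul_le_mul_of_nonneg_right he1 (mul_nonneg he0.le hv0)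
          nlinarith
        have k2 : e * K ≤ K := mul_le_of_le_one_left hK0 he1
        nlinarith
      nlinarith
    · nlinarith
  have hgm : dist (gm (κ * V D a) (m + 1)) (gm (κ * v) (m + 1)) < ε / 3 := hc1 _ hdist
  -- the eventual bounds
  have ev1 := hout (Metric.ball 0 R) Metric.isOpen_ball Metric.isBounded_ball hRcl
  have ev2 := hout D' hD'o (Metric.isBounded_ball.subset hD'R) hD'cl
  have ev3 := hC₂ D' hD'o hD'R f hf hf0 (τ / 2) (by positivity)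
  have ev4 := Metric.tendsto_nhds.1 (hin a ha (m + 1)) (ε / 3) (by positivity)
  filter_upwards [ev1, ev2, ev3, ev4, hC] with n n1 n2 n3 n4 n5
  have hgB : ∀ ξ : ℝ × ℝ → ℝ, (∀ z, |ξ z| ≤ g z) →
      ze c (F n) (fun x => hB (verts (F n)) (δ n) ξ (vh x) ^ (2 * m)) ≤ |C| := by
    intro ξ hξ
    have h1 := ze_le_of_abs hm (δ := δ n) (F n) (verts (F n)) (ξ := ξ) (f := g)
      (fun v _ => hξ _) (2 * m)
    have h2 := ze_verts_le hm (hδ n) n1 hg.cs hg0 (2 * m)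
    have h3 : ze c (Fs (δ n) (Metric.ball 0 R)) (fun x => hv (δ n) g (vh x) ^ (2 * m)) ≤ C := n5
    exact (h1.trans (h2.trans h3)).trans (le_abs_self C)
  have hb2 : ze c (F n) (fun x => hB (verts (F n)) (δ n) b (vh x) ^ 2) ≤ τ := by
    have h1 := ze_le_of_abs hm (δ := δ n) (F n) (verts (F n)) (ξ := b) (f := f)
      (fun v hv => by
        refine hbf _ ?_
        exact vert_mem (hδ n) (Metric.isBounded_ball.subset hD'R) n2 hv) 2
    have h2 := ze_verts_le hm (hδ n) n2 hf.cs hf0 2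
    have h3 : ze c (Fs (δ n) D') (fun x => hv (δ n) f (vh x) ^ 2)
        ≤ C₂ * (∫ z, f z ^ 2) + τ / 2 := n3
    have h4 : C₂ * (∫ z, f z ^ 2) ≤ C₂ * η := mul_le_mul_of_nonneg_left hfL hC₂0
    linarith
  have hd := mom_diff hc (F n) (verts (F n)) (δ n) hab hl0 m (hgB φ hφg)
    (hgB a fun z => (haφ z).trans (hφg z)) hb2
  have hd2 : ((m : ℝ) + 1) / 2 * (τ / lam + lam * (2 * |C|)) < ε / 3 := by
    have e2 : ((m : ℝ) + 1) / 2 * (τ / lam) = ε / 12 := by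
      rw [hτ]; field_simp; ring
    rw [mul_add, e2]
    linarith
  have hd3 : dist (ze c (F n) (fun x => zf (F n) (δ n) φ x ^ (m + 1)))
      (ze c (F n) (fun x => zf (F n) (δ n) a x ^ (m + 1))) < ε / 3 := by
    rw [Real.dist_eq]
    exact lt_of_le_of_lt hd hd2
  have t1 := dist_triangle (ze c (F n) (fun x => zf (F n) (δ n) φ x ^ (m + 1)))
    (ze c (F n) (fun x => zf (F n) (δ n) a x ^ (m + 1))) (gm (κ * v) (m + 1))
  have t2 := dist_triangle (ze c (F n) (fun x => zf (F n) (δ n) a x ^ (m + 1)))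
    (gm (κ * V D a) (m + 1)) (gm (κ * v) (m + 1))
  linarith

end Vale.Agent.P145.H8
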