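import Vale.Agent.P145.H8.Asm

/-!
# P145 / H8 / Bridge : polygons as sets of faces
-/

namespace Vale.Agent.P145.H8

open Filter Topology Set MeasureTheory ProbabilityTheory
open Vale.Agent.P145.PT Vale.Agent.P145.FP Vale.Agent.P145.Dom Vale.Agent.P145.Top

/-- The height function of the Ashkin-Teller model in a polygon. -/
theorem law_hE {t : ℝ} (ht : 0 < t) {n : ℕ} {p : ZMod n → ℤ × ℤ} (hp : IsPolygon p)
    {F : Finset (ℤ × ℤ)} (hF : Encloses p F) {H : Conf → Site → ℝ}
    (hH : ∀ᵐ σ ∂Dom.law t p F, Dom.IsHt p F σ (H σ)) (Φ : (Site → ℝ) → ℝ) :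
    ∫ σ, Φ (res F (H σ)) ∂Dom.law t p F = hE t F Φ := by
  classical
  have h1 : ∀ x ∈ ZH F, Dom.IsHt p F (cfx x) (H (cfx x)) := by
    intro x hx
    rw [← conf_neg hp hF hx]
    refine of_law_ae ht.le hH (neg_subset p F x) ?_
    rw [conf_neg hp hF hx, wt_cfx ht.ne' hx]
    refine mul_ne_zero (pow_ne_zero _ ht.ne') ?_
    unfold zw
    refine mul_ne_zero (Finset.prod_ne_zero_iff.2 fun e _ => ?_)
      (Finset.prod_ne_zero_iff.2 fun e _ => ?_) <;>
      split_ifs <;> positivity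
  rw [law_ze ht hp hF (fun σ => Φ (res F (H σ))), hE_eq ht]
  refine ze_congr' (1 / t) F fun x hx => ?_
  congr 1
  have hx' := mem_ZH.1 hx
  funext s
  rcases s with v | f
  · show (if v ∈ JG.verts F then H (cfx x) (Sum.inl v) else 0) = half x (Sum.inl v)
    by_cases hv : v ∈ JG.verts F
    · rw [if_pos hv]
      exact IsHt.unique hF (h1 x hx) (isHt_cfx hp hF hx) hv
    · rw [if_neg hv]
      have h0 : x (Sum.inl v) = 0 := (hx'.2.2 v v (cor_self v)).1 fun h => hv
        (mem_verts'.2 ⟨v, h, cor_self v⟩)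
      unfold half
      rw [h0]; simp
  · show (if f ∈ F then H (cfx x) (Sum.inr f) else 0) = half x (Sum.inr f)
    by_cases hf : f ∈ F
    · rw [if_pos hf]
      exact IsHt.unique_face hF (h1 x hx) (isHt_cfx hp hF hx) hf
    · rw [if_neg hf]
      unfold half
      rw [hx'.2.1 f hf]; simp

/-- Polygons approximating `D` enclose sets of faces approximating `D`, if the exterior of `D` is
connected. -/
theorem approxF_of_poly {D : Set (ℝ × ℝ)} (hop : IsOpen D) (hb : Bornology.IsBounded D)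
    (hext : IsPreconnected (closure D)ᶜ) {δ : ℕ → ℝ} {N : ℕ → ℕ}
    {p : ∀ n, ZMod (N n) → ℤ × ℤ} {F : ℕ → Finset (ℤ × ℤ)} (h : Dom.Approx D δ N p F) :
    ApproxF D δ F := by
  refine ⟨h.pos, h.lim, fun ε hε => ?_, h.cpt⟩
  filter_upwards [approx_outer_gen hop hb hext h (U := Metric.thickening ε D)
    Metric.isOpen_thickening (Metric.closure_subset_thickening hε D)] with n hn f hf
  have hmem : ((δ n * f.1, δ n * f.2) : ℝ × ℝ) ∈ Dom.sq (δ n) f := by
    have := h.pos n
    refine ⟨⟨?_, ?_⟩, ⟨?_, ?_⟩⟩ <;> simp only <;> linarith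
  obtain ⟨z, hz, hd⟩ := Metric.mem_thickening_iff.1 (hn f hf hmem)
  exact ⟨z, hz, hd⟩

end Vale.Agent.P145.H8
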