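import Vale.Agent.P145.JG.Defs

/-!
# P145 / H8 / Defs : general domains

* `Regular D`: bounded open sets which are the interior of their closure;
* `FinConn D`: the exterior of `D` is a finite union of connected sets;
* the zero boundary height model on an arbitrary finite set of faces (of any topology);
* its convergence (in law and with all moments) to the Gaussian free field.
-/

namespace Vale.Agent.P145.H8

open Finset Filter Topology MeasureTheory ProbabilityTheory Vale.Agent.P145.JG

/-- Bounded open sets which are equal to the interior of their closure. No condition on the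
regularity of the boundary. -/
def Regular (D : Set (ℝ × ℝ)) : Prop :=
  IsOpen D ∧ Bornology.IsBounded D ∧ interior (closure D) = D

/-- The exterior (complement of the closure) is a finite union of connected sets. -/
def FinConn (D : Set (ℝ × ℝ)) : Prop :=
  ∃ 𝓔 : Set (Set (ℝ × ℝ)), 𝓔.Finite ∧ (∀ E ∈ 𝓔, IsConnected E) ∧ (closure D)ᶜ = ⋃₀ 𝓔

/-- The zero boundary height functions on the finite set `F` of faces: `H` is an integer at the
vertices, vanishes at the faces outside `F` and at their corners, and differs by `1/2` between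
the faces of `F` and their corners. -/
def Heights (F : Finset (ℤ × ℤ)) : Set (Site → ℝ) :=
  {H | (∀ v, ∃ m : ℤ, H (Sum.inl v) = m) ∧ (∀ f, f ∉ F → H (Sum.inr f) = 0) ∧
    ∀ f : ℤ × ℤ, ∀ a b : ℤ, (a = 0 ∨ a = 1) → (b = 0 ∨ b = 1) →
      (f ∉ F → H (Sum.inl (f.1 + a, f.2 + b)) = 0) ∧
      (f ∈ F → |H (Sum.inr f) - H (Sum.inl (f.1 + a, f.2 + b))| = 1 / 2)}

open Classical in
/-- The weight of a height function: `t` to the number of the interior edges (both sides in `F`)
such that the heights at both ends, or the heights at both sides, are different. -/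
noncomputable def hwt (t : ℝ) (F : Finset (ℤ × ℤ)) (H : Site → ℝ) : ℝ :=
  (∏ e ∈ F with e - (0, 1) ∈ F,
    if H (Sum.inl e) = H (Sum.inl (e.1 + 1, e.2)) ∧ H (Sum.inr e) = H (Sum.inr (e.1, e.2 - 1))
      then 1 else t) *
  ∏ e ∈ F with e - (1, 0) ∈ F,
    if H (Sum.inl e) = H (Sum.inl (e.1, e.2 + 1)) ∧ H (Sum.inr e) = H (Sum.inr (e.1 - 1, e.2))
      then 1 else t

/-- The expectation of `Φ(H)` for a random zero boundary height function `H` on `F` with
probability proportional to its weight. -/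
noncomputable def hE (t : ℝ) (F : Finset (ℤ × ℤ)) (Φ : (Site → ℝ) → ℝ) : ℝ :=
  (∑ᶠ H ∈ Heights F, hwt t F H * Φ H) / ∑ᶠ H ∈ Heights F, hwt t F H

/-- The restriction of `H` to the corners of the faces of `F` and to the faces of `F`, extended by
zero. -/
noncomputable def res (F : Finset (ℤ × ℤ)) (H : Site → ℝ) : Site → ℝ :=
  Sum.elim (fun v => if v ∈ verts F then H (Sum.inl v) else 0)
    (fun f => if f ∈ F then H (Sum.inr f) else 0)

/-- Finite sets `F n` of faces of mesh `δ n → 0` approximating the open set `D`: the faces are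
eventually within any given distance of `D`, and every compact subset of `D` is eventually
covered. -/
structure ApproxF (D : Set (ℝ × ℝ)) (δ : ℕ → ℝ) (F : ℕ → Finset (ℤ × ℤ)) : Prop where
  pos : ∀ n, 0 < δ n
  lim : Tendsto δ atTop (𝓝 0)
  near : ∀ ε > 0, ∀ᶠ n in atTop, ∀ f ∈ F n, ∃ z ∈ D, dist (δ n * f.1, δ n * f.2) z < ε
  cpt : ∀ K ⊆ D, IsCompact K → ∀ᶠ n in atTop, ∀ z ∈ K, (⌊z.1 / δ n⌋, ⌊z.2 / δ n⌋) ∈ F n

/-- Convergence in law of the zero boundary heights on the sets `F n`, tested against finitely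
many test functions of the class `T`, to the Gaussian vector with covariance
`s² 2π ⟨φ, (-Δ_D)⁻¹ ψ⟩`, for all sequences `F n` of sets of faces approximating `D`. -/
def LawF (t s : ℝ) (D : Set (ℝ × ℝ)) (T : (ℝ × ℝ → ℝ) → Prop) : Prop :=
  ∀ (δ : ℕ → ℝ) (F : ℕ → Finset (ℤ × ℤ)), ApproxF D δ F →
    ∀ (k : ℕ) (φ : Fin k → ℝ × ℝ → ℝ), (∀ j, T (φ j)) →
      (Matrix.of fun i j => s ^ 2 * (2 * Real.pi * dirCov D (φ i) (φ j))).PosSemidef ∧
      ∀ g : BoundedContinuousFunction (EuclideanSpace ℝ (Fin k)) ℝ,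
        Tendsto (fun n => hE t (F n) fun H => g (WithLp.toLp 2 fun j => fldD (F n) H (δ n) (φ j)))
          atTop (𝓝 (∫ y, g y ∂(multivariateGaussian 0
            (Matrix.of fun i j => s ^ 2 * (2 * Real.pi * dirCov D (φ i) (φ j))))))

/-- Convergence of all moments of the zero boundary heights on the sets `F n`, tested against a
test function `φ` of the class `T`, to the moments of the centred Gaussian variable with variance
`s² 2π ⟨φ, (-Δ_D)⁻¹ φ⟩`, for all sequences `F n` of sets of faces approximating `D`. -/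
def MomF (t s : ℝ) (D : Set (ℝ × ℝ)) (T : (ℝ × ℝ → ℝ) → Prop) : Prop :=
  ∀ (δ : ℕ → ℝ) (F : ℕ → Finset (ℤ × ℤ)), ApproxF D δ F → ∀ φ : ℝ × ℝ → ℝ, T φ → ∀ q : ℕ,
    Tendsto (fun n => hE t (F n) fun H => fldD (F n) H (δ n) φ ^ (2 * q)) atTop
      (𝓝 ((2 * q).factorial / (2 ^ q * q.factorial) *
        (s ^ 2 * (2 * Real.pi * V D φ)) ^ q)) ∧
    Tendsto (fun n => hE t (F n) fun H => fldD (F n) H (δ n) φ ^ (2 * q + 1)) atTop (𝓝 0)

/-- Outer stability of the Dirichlet form: `⟨φ, (-Δ)⁻¹ φ⟩` is continuous under shrinking of the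
neighbourhoods of `D` to `D`. -/
def Stable (D : Set (ℝ × ℝ)) : Prop :=
  ∀ φ : ℝ × ℝ → ℝ, TestOn D φ → (∀ z, 0 ≤ φ z) → ∀ η : ℝ, 0 < η →
    ∃ s : ℝ, 0 < s ∧ V (Metric.thickening s D) φ ≤ V D φ + η

end Vale.Agent.P145.H8
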