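import Vale.Agent.P145.H8.Bridge
import Vale.Agent.P145.H88.Main

/-!
# P145 / H8 / Fin : the final theorem
-/

namespace Vale.Agent.P145.H8

open Filter Topology MeasureTheory Vale.Agent.P145.JG
open Vale.Agent.P145.H88 (Carath MomConv)

/-- All inputs at the points of the self-dual line. -/
theorem ins_U {J U : ℝ} (hUJ : U ≤ J) (hself : Real.sinh (2 * J) = Real.exp (-2 * U)) {s : ℝ}
    (hs : s = 1 / (Real.pi * √(8 / Real.pi * Real.arcsin (√(1 + Real.exp (4 * U)) / 2)))) :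
    Ins √(1 + Real.exp (4 * U)) (s ^ 2 * (2 * Real.pi)) := by
  obtain ⟨hc, hc2⟩ := JG.c_range hUJ hself
  have h0 : 0 < Real.exp (4 * U) := Real.exp_pos _
  have h1' : 1 < √(1 + Real.exp (4 * U)) := by
    rw [Real.lt_sqrt (by norm_num)]; linarith
  have hV : X.Val √(1 + Real.exp (4 * U)) :=
    X.val_of_mainV (P152.GFF.mainV_fin (JG.sin_small.trans h1') hc2)
  have ha : 0 < Real.arcsin (√(1 + Real.exp (4 * U)) / 2) :=
    Real.arcsin_pos.2 (by linarith only [h1'])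
  have hpi := Real.pi_pos
  set g : ℝ := 8 / Real.pi * Real.arcsin (√(1 + Real.exp (4 * U)) / 2) with hg
  have hg0 : 0 < g := by rw [hg]; positivity
  have hs' : 1 / (4 * Real.arcsin (√(1 + Real.exp (4 * U)) / 2)) = s ^ 2 * (2 * Real.pi) := by
    rw [hs, div_pow, mul_pow, Real.sq_sqrt hg0.le, one_pow, hg]
    field_simp
    ring
  rw [← hs']
  exact ins_of hc hc2 (JG.inOK hc hc2) hV

theorem heights_fin {t : ℝ} (ht : 0 < t) (F : Finset (ℤ × ℤ)) :
    (Heights F).Finite ∧ hE t F (fun _ => 1) = 1 := by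
  constructor
  · rw [heights_eq]
    exact (Dom.ZH_finite F).image _
  · rw [hE_eq ht]
    unfold Dom.ze
    exact div_self (Top.zs_pos' (by positivity) F).ne'

theorem iffs {c s : ℝ} (H : Ins c (s ^ 2 * (2 * Real.pi))) {D : Set (ℝ × ℝ)} (hop : IsOpen D)
    (hb : Bornology.IsBounded D) (T : (ℝ × ℝ → ℝ) → Prop)
    (hT : T = TestOn D ∨ volume (frontier D) = 0 ∧ T = TestOn Set.univ) :
    (LawF c⁻¹ s D T ↔ Stable D) ∧ (MomF c⁻¹ s D T ↔ Stable D) := by
  rcases hT with rfl | ⟨hvol, rfl⟩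
  · exact ⟨⟨fun h => nec_law H rfl hop hb h, fun h => (suff_D H rfl hop hb h).1⟩,
      ⟨fun h => nec_mom H rfl hop hb h, fun h => (suff_D H rfl hop hb h).2⟩⟩
  · have hsub : ∀ φ, TestOn D φ → TestOn Set.univ φ := fun φ h =>
      ⟨h.1, h.2.1, Set.subset_univ _⟩
    exact ⟨⟨fun h => nec_law H rfl hop hb (fun δ F hA k φ hφ => h δ F hA k φ fun j => hsub _ (hφ j)),
        fun h => (suff_U H rfl hop hb hvol h).1⟩,
      ⟨fun h => nec_mom H rfl hop hb (fun δ F hA φ hφ q => h δ F hA φ (hsub _ hφ) q),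
        fun h => (suff_U H rfl hop hb hvol h).2⟩⟩

theorem stable_of {D : Set (ℝ × ℝ)} (h : Carath D ∨ Regular D ∧ FinConn D) : Stable D := by
  rcases h with h | ⟨⟨hop, hb, hreg⟩, 𝓔, hfin, hE, hU⟩
  · exact fun φ hφ hφ0 η hη => H88.carath_stab h hφ hφ0 hη
  · exact stable_of_circ hop hb (circ_of_finset hreg hfin (fun E h => (hE E h).isPreconnected) hU)

end Vale.Agent.P145.H8
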