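import Vale.Agent.P145.Bdl.FC

/-!
# P145 / H8 / Geo : plane topology of bounded open sets with finitely connected exterior

* `circ_of_fin`: if `D = int cl D` and the exterior of `D` is a finite union of connected sets, no
  small circle centred at a boundary point is contained in the closure of `D`;
* `extLoc_of_circ`: the uniform version needed for the stability of the Dirichlet form;
* `enclosed_thickening_gen`: if the exterior is connected, everything enclosed by a set close to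
  the boundary of `D` is close to `D`.
-/

namespace Vale.Agent.P145.H8

open Set Filter Topology Metric Vale.Agent.P145.PT Vale.Agent.P145.Dom

/-- No circle of radius at most `r₀` centred at a boundary point is contained in the closure. -/
def Circ (D : Set (ℝ × ℝ)) : Prop :=
  ∃ r₀ : ℝ, 0 < r₀ ∧ ∀ z ∈ frontier D, ∀ r : ℝ, 0 < r → r ≤ r₀ →
    ∃ p, sqn (p - z) = r ^ 2 ∧ p ∉ closure D

/-- The local exterior condition used for the stability. -/
def ExtLoc (D : Set (ℝ × ℝ)) : Prop :=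
  ∃ r₀ : ℝ, 0 < r₀ ∧ ∀ R : ℝ, 0 < R → ∃ s : ℝ, 0 < s ∧ ∃ ρ : ℝ, 0 < ρ ∧
    ∀ x ∈ D, dd D x < ρ → ∀ r : ℝ, R ≤ r → r ≤ r₀ →
      ∃ p, sqn (p - x) = r ^ 2 ∧ p ∉ Metric.thickening s D

theorem norm_lt_of_sqn {y : ℝ × ℝ} {r : ℝ} (hr : 0 ≤ r) (h : sqn y < r ^ 2) : ‖y‖ < r := by
  have h1 := norm_sq_le_sqn y
  exact lt_of_pow_lt_pow_left₀ 2 hr (h1.trans_lt h)

/-- A preconnected set which meets no point of the circle and has `z` in its closure lies inside
the circle. -/
theorem inside_of_circle {E : Set (ℝ × ℝ)} (hE : IsPreconnected E) {z : ℝ × ℝ} {r : ℝ} (hr : 0 < r)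
    (hz : z ∈ closure E) (hcirc : ∀ p, sqn (p - z) = r ^ 2 → p ∉ E) :
    ∀ w ∈ E, sqn (w - z) < r ^ 2 := by
  have hcont : Continuous fun w : ℝ × ℝ => sqn (w - z) :=
    sqn_smooth.continuous.comp (continuous_id.sub continuous_const)
  -- a point of `E` near `z`
  obtain ⟨w₀, hw₀, hw₀r⟩ : ∃ w ∈ E, sqn (w - z) < r ^ 2 := by
    have hopen : IsOpen {w : ℝ × ℝ | sqn (w - z) < r ^ 2} := isOpen_lt hcont continuous_const
    have hmem : z ∈ {w : ℝ × ℝ | sqn (w - z) < r ^ 2} := by
      have : sqn (z - z) = 0 := by unfold sqn; simp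
      show sqn (z - z) < r ^ 2
      rw [this]; positivity
    obtain ⟨w, hw1, hw2⟩ := mem_closure_iff.1 hz _ hopen hmem
    exact ⟨w, hw2, hw1⟩
  intro w hw
  by_contra hcon
  push Not at hcon
  have him : IsPreconnected ((fun w : ℝ × ℝ => sqn (w - z)) '' E) := hE.image _ hcont.continuousOn
  have h1 : r ^ 2 ∈ (fun w : ℝ × ℝ => sqn (w - z)) '' E :=
    him.ordConnected.out ⟨w₀, hw₀, rfl⟩ ⟨w, hw, rfl⟩ ⟨hw₀r.le, hcon⟩
  obtain ⟨p, hpE, hp⟩ := h1
  exact hcirc p hp hpE

/-- The boundary circle condition for regular open sets with finitely connected exterior. -/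
theorem circ_of_fin {D : Set (ℝ × ℝ)} (hreg : interior (closure D) = D) {m : ℕ}
    {E : Fin m → Set (ℝ × ℝ)} (hE : ∀ i, IsPreconnected (E i)) (hU : (closure D)ᶜ = ⋃ i, E i) :
    Circ D := by
  classical
  -- the sizes of the pieces
  have hsize : ∀ i : Fin m, ∃ r : ℝ, 0 < r ∧
      ((E i).Subsingleton ∨ ∃ a ∈ E i, ∃ b ∈ E i, 4 * r ≤ dist a b) := by
    intro i
    by_cases h : (E i).Subsingleton
    · exact ⟨1, one_pos, Or.inl h⟩
    · rw [Set.not_subsingleton_iff] at h
      obtain ⟨a, ha, b, hb, hab⟩ := h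
      refine ⟨dist a b / 4, by have := dist_pos.2 hab; positivity, Or.inr ⟨a, ha, b, hb, ?_⟩⟩
      linarith
  choose ρ hρ0 hρ using hsize
  obtain ⟨r₀, hr₀, hr₀le⟩ : ∃ r₀ : ℝ, 0 < r₀ ∧ ∀ i, r₀ ≤ ρ i := by
    rcases Nat.eq_zero_or_pos m with h0 | h0
    · subst h0
      exact ⟨1, one_pos, fun i => i.elim0⟩
    · have : Nonempty (Fin m) := ⟨⟨0, h0⟩⟩
      obtain ⟨i, hi⟩ := Finite.exists_min ρ
      exact ⟨ρ i, hρ0 i, hi⟩
  refine ⟨r₀, hr₀, fun z hz r hr hrr => ?_⟩
  by_contra hcon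
  push Not at hcon
  have hzcl : z ∈ closure D := frontier_subset_closure hz
  have hzint : z ∉ interior (closure D) := by
    rw [hreg]
    intro hzD
    have hop : IsOpen D := by rw [← hreg]; exact isOpen_interior
    rw [hop.frontier_eq] at hz
    exact hz.2 hzD
  have hz2 : z ∈ closure ((closure D)ᶜ) := by
    rw [closure_compl]; exact hzint
  rw [hU, closure_iUnion_of_finite] at hz2
  obtain ⟨i, hi⟩ := mem_iUnion.1 hz2
  have hEi : E i ⊆ (closure D)ᶜ := by rw [hU]; exact subset_iUnion E i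
  have hins := inside_of_circle (hE i) hr hi (fun p hp hpE => hEi hpE (hcon p hp))
  rcases hρ i with h | ⟨a, ha, b, hb, hab⟩
  · -- a single point
    have hne : (E i).Nonempty := closure_nonempty_iff.1 ⟨z, hi⟩
    obtain ⟨x, hx⟩ := hne
    have hEx : E i = {x} := h.eq_singleton_of_mem hx
    rw [hEx, closure_singleton, mem_singleton_iff] at hi
    rw [← hi] at hx
    exact hEi hx hzcl
  · have h1 := norm_lt_of_sqn hr.le (hins a ha)
    have h2 := norm_lt_of_sqn hr.le (hins b hb)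
    rw [← dist_eq_norm] at h1 h2
    have h3 := dist_triangle_right a b z
    have h4 := hr₀le i
    linarith

/-- The same with a finite set of connected sets. -/
theorem circ_of_finset {D : Set (ℝ × ℝ)} (hreg : interior (closure D) = D)
    {𝓔 : Set (Set (ℝ × ℝ))} (hfin : 𝓔.Finite) (hE : ∀ E ∈ 𝓔, IsPreconnected E)
    (hU : (closure D)ᶜ = ⋃₀ 𝓔) : Circ D := by
  have : Finite 𝓔 := hfin
  obtain ⟨m, ⟨e⟩⟩ := Finite.exists_equiv_fin 𝓔
  refine circ_of_fin (m := m) (E := fun i => (e.symm i : Set (ℝ × ℝ))) hreg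
    (fun i => hE _ (e.symm i).2) ?_
  rw [hU, sUnion_eq_iUnion]
  exact (e.symm.surjective.iUnion_comp (fun x : 𝓔 => (x : Set (ℝ × ℝ)))).symm

/-- The uniform version of the boundary circle condition. -/
theorem extLoc_of_circ {D : Set (ℝ × ℝ)} (hD : IsOpen D) (hb : Bornology.IsBounded D)
    (h : Circ D) : ExtLoc D := by
  obtain ⟨r₀, hr₀, hc⟩ := h
  refine ⟨r₀, hr₀, fun R hR => ?_⟩
  by_contra hcon
  push Not at hcon
  have hseq : ∀ n : ℕ, ∃ q : (ℝ × ℝ) × ℝ, q.1 ∈ D ∧ dd D q.1 < 1 / ((n : ℝ) + 1) ∧ R ≤ q.2 ∧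
      q.2 ≤ r₀ ∧ ∀ p, sqn (p - q.1) = q.2 ^ 2 → p ∈ Metric.thickening (1 / ((n : ℝ) + 1)) D := by
    intro n
    have hn : (0 : ℝ) < 1 / ((n : ℝ) + 1) := by positivity
    obtain ⟨x, hx, hx1, r, h1, h2, h3⟩ := hcon _ hn _ hn
    exact ⟨(x, r), hx, hx1, h1, h2, h3⟩
  choose q hq1 hq2 hq3 hq4 hq5 using hseq
  have hK : IsCompact (closure D ×ˢ Icc R r₀) := hb.isCompact_closure.prod isCompact_Icc
  obtain ⟨⟨z, r⟩, hzr, u, hu, hlim⟩ := hK.tendsto_subseq (x := q)
    (fun n => ⟨subset_closure (hq1 n), hq3 n, hq4 n⟩)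
  have hl1 : Tendsto (fun n => (q (u n)).1) atTop (𝓝 z) :=
    (continuous_fst.tendsto (z, r)).comp hlim
  have hl2 : Tendsto (fun n => (q (u n)).2) atTop (𝓝 r) :=
    (continuous_snd.tendsto (z, r)).comp hlim
  have hs0 : Tendsto (fun n : ℕ => 1 / ((u n : ℝ) + 1)) atTop (𝓝 0) :=
    tendsto_one_div_add_atTop_nhds_zero_nat.comp hu.tendsto_atTop
  have hr : 0 < r := hR.trans_le hzr.2.1
  have hdz : dd D z ≤ 0 := by
    have h1 : Tendsto (fun n => dd D (q (u n)).1) atTop (𝓝 (dd D z)) :=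
      ((dd_cont D).tendsto z).comp hl1
    exact le_of_tendsto_of_tendsto h1 hs0 (Eventually.of_forall fun n => (hq2 (u n)).le)
  have hzD : z ∉ D := fun hz => absurd ((dd_pos hD hb).2 hz) (not_lt.2 hdz)
  have hzf : z ∈ frontier D := by
    rw [hD.frontier_eq]; exact ⟨hzr.1, hzD⟩
  obtain ⟨p, hp, hpD⟩ := hc z hzf r hr hzr.2.2
  apply hpD
  -- points of the nearby circles
  set P : ℕ → ℝ × ℝ := fun n => (q (u n)).1 + ((q (u n)).2 / r) • (p - z) with hP
  have hPs : ∀ n, sqn (P n - (q (u n)).1) = (q (u n)).2 ^ 2 := by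
    intro n
    have e : P n - (q (u n)).1 = ((q (u n)).2 / r) • (p - z) := by rw [hP]; simp
    have e2 : sqn (((q (u n)).2 / r) • (p - z)) = ((q (u n)).2 / r) ^ 2 * sqn (p - z) := by
      unfold sqn; simp only [Prod.smul_fst, Prod.smul_snd, smul_eq_mul]; ring
    rw [e, e2, hp]
    field_simp
  have hPl : Tendsto P atTop (𝓝 p) := by
    have h1 : Tendsto (fun n => (q (u n)).2 / r) atTop (𝓝 (r / r)) := hl2.div_const r
    rw [div_self hr.ne'] at h1
    have h2 : Tendsto P atTop (𝓝 (z + (1 : ℝ) • (p - z))) := hl1.add (h1.smul_const (p - z))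
    have e : z + (1 : ℝ) • (p - z) = p := by rw [one_smul]; abel
    rwa [e] at h2
  have hd : ∀ n, ∃ w ∈ D, dist (P n) w < 1 / ((u n : ℝ) + 1) := fun n =>
    Metric.mem_thickening_iff.1 (hq5 (u n) (P n) (hPs n))
  choose w hwD hw using hd
  have hwl : Tendsto w atTop (𝓝 p) := by
    rw [tendsto_iff_dist_tendsto_zero]
    have h1 : Tendsto (fun n => 1 / ((u n : ℝ) + 1) + dist (P n) p) atTop (𝓝 (0 + 0)) :=
      hs0.add (tendsto_iff_dist_tendsto_zero.1 hPl)
    rw [add_zero] at h1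
    refine squeeze_zero (fun _ => dist_nonneg) (fun n => ?_) h1
    have h2 := dist_triangle (w n) (P n) p
    have h3 := hw n
    rw [dist_comm] at h3
    linarith
  exact mem_closure_of_tendsto hwl (Eventually.of_forall hwD)

/-- If the exterior of the bounded open set `D` is connected, everything enclosed by a set close to
the boundary is close to `D`. -/
theorem enclosed_thickening_gen {D : Set (ℝ × ℝ)} (hb : Bornology.IsBounded D)
    (hext : IsPreconnected (closure D)ᶜ) {s : ℝ} (hs : 0 < s) :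
    ∃ ε : ℝ, 0 < ε ∧ ∀ T : Set (ℝ × ℝ), T ⊆ thickening ε (closure D) →
      enclosed T ⊆ thickening s D := by
  -- a large ball
  obtain ⟨B, hB0, hB⟩ : ∃ B : ℝ, 0 < B ∧ ∀ z ∈ closure D, ‖z‖ ≤ B := by
    obtain ⟨B, hB⟩ := hb.closure.exists_norm_le
    exact ⟨max B 1, lt_max_of_lt_right one_pos, fun z hz => (hB z hz).trans (le_max_left _ _)⟩
  -- rays outside the large ball
  have hray : ∀ z : ℝ × ℝ, B + 1 ≤ ‖z‖ →
      Disjoint ((fun c : ℝ => c • z) '' Ici (1 : ℝ)) (thickening 1 (closure D)) := by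
    intro z hz
    rw [Set.disjoint_left]
    rintro _ ⟨c, hc, rfl⟩ hmem
    obtain ⟨w, hw, hd⟩ := Metric.mem_thickening_iff.1 hmem
    have h1 := hB w hw
    have hc' : (1 : ℝ) ≤ c := hc
    have h2 : ‖c • z‖ = c * ‖z‖ := by rw [norm_smul, Real.norm_of_nonneg (by linarith)]
    have h3 : ‖c • z‖ ≤ ‖w‖ + dist (c • z) w := by
      rw [dist_eq_norm]
      have := norm_add_le w (c • z - w)
      simpa using this
    simp only at hd
    nlinarith [norm_nonneg z]
  -- the set with a uniform escape route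
  set A : Set (ℝ × ℝ) := {z | s ≤ infDist z D} ∩ closedBall 0 (B + 1) with hA
  have hAc : IsCompact A := (isCompact_closedBall _ _).inter_left
    (isClosed_le continuous_const (continuous_infDist_pt _))
  have hAext : A ⊆ (closure D)ᶜ := by
    intro z hz hzc
    have h1 : s ≤ infDist z D := hz.1
    have h2 : infDist z D = 0 := by
      rw [← infDist_closure]; exact infDist_zero_of_mem hzc
    linarith
  set w₀ : ℝ × ℝ := (B + 1, 0) with hw₀
  have hw₀n : ‖w₀‖ = B + 1 := by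
    rw [hw₀, Prod.norm_def]
    simp only [norm_zero, Real.norm_eq_abs]
    rw [abs_of_pos (by linarith), max_eq_left (by linarith)]
  have hw₀ext : w₀ ∈ (closure D)ᶜ := by
    intro h
    have := hB _ h
    rw [hw₀n] at this
    linarith
  have hpc : IsPathConnected ((closure D)ᶜ) :=
    (isClosed_closure.isOpen_compl.isConnected_iff_isPathConnected).1 ⟨⟨w₀, hw₀ext⟩, hext⟩
  have key : ∃ ε : ℝ, 0 < ε ∧ ∀ z ∈ A, ∃ S : Set (ℝ × ℝ), IsPreconnected S ∧ z ∈ S ∧ w₀ ∈ S ∧
      Disjoint S (thickening ε (closure D)) := by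
    refine hAc.induction_on (p := fun A' => ∃ ε : ℝ, 0 < ε ∧ ∀ z ∈ A', ∃ S : Set (ℝ × ℝ),
      IsPreconnected S ∧ z ∈ S ∧ w₀ ∈ S ∧ Disjoint S (thickening ε (closure D))) ?_ ?_ ?_ ?_
    · exact ⟨1, one_pos, fun z hz => hz.elim⟩
    · rintro s t hst ⟨ε, hε, h⟩
      exact ⟨ε, hε, fun z hz => h z (hst hz)⟩
    · rintro s t ⟨ε, hε, h⟩ ⟨ε', hε', h'⟩
      refine ⟨min ε ε', lt_min hε hε', ?_⟩
      rintro z (hz | hz)
      · obtain ⟨S, h1, h2, h3, h4⟩ := h z hz
        exact ⟨S, h1, h2, h3, h4.mono_right (thickening_mono (min_le_left _ _) _)⟩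
      · obtain ⟨S, h1, h2, h3, h4⟩ := h' z hz
        exact ⟨S, h1, h2, h3, h4.mono_right (thickening_mono (min_le_right _ _) _)⟩
    · intro z hz
      have hzext := hAext hz
      obtain ⟨ρ, hρ, hρsub⟩ := Metric.nhds_basis_closedBall.mem_iff.1
        (isClosed_closure.isOpen_compl.mem_nhds hzext)
      have hj : JoinedIn ((closure D)ᶜ) z w₀ := hpc.joinedIn z hzext w₀ hw₀ext
      set γ := hj.somePath with hγ
      set K : Set (ℝ × ℝ) := closedBall z ρ ∪ range γ with hK
      have hKc : IsCompact K := (isCompact_closedBall _ _).union (isCompact_range γ.continuous)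
      have hKext : K ⊆ (closure D)ᶜ := by
        refine union_subset hρsub ?_
        rintro _ ⟨t, rfl⟩
        exact hj.somePath_mem t
      have hKp : IsPreconnected K := by
        refine IsPreconnected.union z (mem_closedBall_self hρ.le) ⟨0, γ.source⟩
          (convex_closedBall z ρ).isPreconnected (isPreconnected_range γ.continuous)
      have hdis : Disjoint K (closure D) := Set.disjoint_left.2 fun x hx hx' => hKext hx hx'
      obtain ⟨ε, hε, hεd⟩ := hdis.exists_thickenings hKc isClosed_closure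
      refine ⟨ball z ρ, mem_nhdsWithin_of_mem_nhds (ball_mem_nhds z hρ), ε, hε, ?_⟩
      intro z' hz'
      refine ⟨K, hKp, Or.inl (ball_subset_closedBall hz'), Or.inr ⟨1, γ.target⟩, ?_⟩
      exact hεd.mono_left (self_subset_thickening hε _)
  obtain ⟨ε, hε, hkey⟩ := key
  refine ⟨min ε 1, lt_min hε one_pos, fun T hT z hz => ?_⟩
  by_contra hzs
  have hzs' : s ≤ infDist z D := by
    by_contra hlt
    push Not at hlt
    rcases D.eq_empty_or_nonempty with he | hne
    · -- empty `D`: nothing is enclosed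
      subst he
      have hT0 : T = ∅ := by
        rw [closure_empty, thickening_empty] at hT
        exact subset_empty_iff.1 hT
      have h1 : IsPreconnected (univ : Set (ℝ × ℝ)) := isPreconnected_univ
      refine not_mem_enclosed (T := T) (S := univ) h1 (by rw [hT0]; simp) ?_ (mem_univ z) hz
      exact NormedSpace.unbounded_univ ℝ (ℝ × ℝ)
    · exact hzs (by rw [mem_thickening_iff_infDist_lt hne]; exact hlt)
  have hT1 : T ⊆ thickening 1 (closure D) := hT.trans (thickening_mono (min_le_right _ _) _)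
  have hTε : T ⊆ thickening ε (closure D) := hT.trans (thickening_mono (min_le_left _ _) _)
  have hne0 : ∀ y : ℝ × ℝ, B + 1 ≤ ‖y‖ → y ≠ 0 := by
    rintro y hy rfl
    rw [norm_zero] at hy
    linarith
  rcases le_or_gt (B + 1) ‖z‖ with hzB | hzB
  · refine not_mem_enclosed (isPreconnected_ray z) ?_ (not_isBounded_ray (hne0 z hzB))
      (⟨1, self_mem_Ici, one_smul _ _⟩ : z ∈ (fun c : ℝ => c • z) '' Ici (1 : ℝ)) hz
    intro x hx hxT
    exact Set.disjoint_left.1 (hray z hzB) hx (hT1 hxT)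
  · have hzA : z ∈ A := ⟨hzs', mem_closedBall_zero_iff.2 hzB.le⟩
    obtain ⟨S, hSp, hzS, hwS, hSd⟩ := hkey z hzA
    have hunion : IsPreconnected (S ∪ (fun c : ℝ => c • w₀) '' Ici (1 : ℝ)) :=
      IsPreconnected.union w₀ hwS ⟨1, self_mem_Ici, one_smul _ _⟩ hSp (isPreconnected_ray w₀)
    refine not_mem_enclosed hunion ?_ ?_ (Or.inl hzS) hz
    · rintro x (hx | hx) hxT
      · exact Set.disjoint_left.1 hSd hx (hTε hxT)
      · exact Set.disjoint_left.1 (hray w₀ hw₀n.ge) hx (hT1 hxT)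
    · intro hbd
      exact not_isBounded_ray (hne0 w₀ hw₀n.ge) (hbd.subset subset_union_right)

end Vale.Agent.P145.H8
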