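import Vale.Agent.P145.H8.Defs
import Vale.Agent.P145.Bdl.FC

/-!
# P145 / H8 / Ht : the height model in terms of the doubled heights
-/

namespace Vale.Agent.P145.H8

open Finset Filter Topology MeasureTheory ProbabilityTheory
open Vale.Agent.P145.Dom (ZH zw zs ze zf ZH_finite)
open Vale.Agent.P145.JG (Site)

/-- Half of an integer height function. -/
noncomputable def half (x : Site → ℤ) : Site → ℝ := fun s => (x s : ℝ) / 2

theorem half_inj : Function.Injective half := by
  intro x y h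
  funext s
  have h1 := congrFun h s
  unfold half at h1
  have h2 : (x s : ℝ) = y s := by linarith
  exact_mod_cast h2

theorem half_mem {F : Finset (ℤ × ℤ)} {x : Site → ℤ} (hx : x ∈ ZH F) : half x ∈ Heights F := by
  obtain ⟨h1, h2, h3⟩ := hx
  refine ⟨fun v => ?_, fun f hf => ?_, fun f a b ha hb => ⟨fun hf => ?_, fun hf => ?_⟩⟩
  · obtain ⟨m, hm⟩ := h1 v
    refine ⟨m, ?_⟩
    unfold half
    rw [hm]; push_cast; ring
  · unfold half; rw [h2 f hf]; simp
  · unfold half; rw [(h3 f a b ha hb).1 hf]; simp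
  · have h4 := (h3 f a b ha hb).2 hf
    unfold half
    have h5 : ((x (Sum.inr f) : ℝ) / 2 - (x (Sum.inl (f.1 + a, f.2 + b)) : ℝ) / 2)
        = ((x (Sum.inr f) - x (Sum.inl (f.1 + a, f.2 + b)) : ℤ) : ℝ) / 2 := by push_cast; ring
    rw [h5, abs_div, ← Int.cast_abs, h4]
    norm_num

theorem exists_half {F : Finset (ℤ × ℤ)} {H : Site → ℝ} (hH : H ∈ Heights F) :
    ∃ x ∈ ZH F, half x = H := by
  obtain ⟨h1, h2, h3⟩ := hH
  choose m hm using h1
  -- the doubled heights at the faces
  have hface : ∀ f : ℤ × ℤ, ∃ y : ℤ, H (Sum.inr f) = (y : ℝ) / 2 := by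
    intro f
    by_cases hf : f ∈ F
    · have h4 := (h3 f 0 0 (Or.inl rfl) (Or.inl rfl)).2 hf
      rw [hm] at h4
      rcases (abs_eq (by norm_num)).1 h4 with h | h
      · exact ⟨2 * m (f.1 + 0, f.2 + 0) + 1, by push_cast; linarith⟩
      · exact ⟨2 * m (f.1 + 0, f.2 + 0) - 1, by push_cast; linarith⟩
    · exact ⟨0, by rw [h2 f hf]; simp⟩
  choose y hy using hface
  refine ⟨Sum.elim (fun v => 2 * m v) y, ⟨fun v => ⟨m v, by simp; ring⟩, fun f hf => ?_,
    fun f a b ha hb => ⟨fun hf => ?_, fun hf => ?_⟩⟩, ?_⟩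
  · have h4 := hy f
    rw [h2 f hf] at h4
    have h5 : (y f : ℝ) = 0 := by linarith
    simp only [Sum.elim_inr]
    exact_mod_cast h5
  · have h4 := (h3 f a b ha hb).1 hf
    rw [hm] at h4
    simp only [Sum.elim_inl]
    have h5 : m (f.1 + a, f.2 + b) = 0 := by exact_mod_cast h4
    rw [h5]; simp
  · have h4 := (h3 f a b ha hb).2 hf
    rw [hm, hy] at h4
    simp only [Sum.elim_inl, Sum.elim_inr]
    have h5 : ((y f : ℝ) / 2 - (m (f.1 + a, f.2 + b) : ℝ))
        = ((y f - 2 * m (f.1 + a, f.2 + b) : ℤ) : ℝ) / 2 := by push_cast; ring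
    rw [h5, abs_div, ← Int.cast_abs, abs_of_pos (by norm_num : (0 : ℝ) < 2)] at h4
    have h6 : ((|y f - 2 * m (f.1 + a, f.2 + b)| : ℤ) : ℝ) = 1 := by linarith
    exact_mod_cast h6
  · funext s
    unfold half
    rcases s with v | f
    · simp only [Sum.elim_inl]
      rw [hm]; push_cast; ring
    · simp only [Sum.elim_inr]
      rw [hy]

theorem heights_eq (F : Finset (ℤ × ℤ)) : Heights F = half '' ZH F := by
  ext H
  constructor
  · intro h
    obtain ⟨x, hx, rfl⟩ := exists_half h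
    exact ⟨x, hx, rfl⟩
  · rintro ⟨x, hx, rfl⟩
    exact half_mem hx

theorem half_eq_iff (x : Site → ℤ) (a b : Site) : half x a = half x b ↔ x a = x b := by
  unfold half
  constructor
  · intro h
    have : (x a : ℝ) = x b := by linarith
    exact_mod_cast this
  · intro h; rw [h]

open Classical in
theorem hwt_half {t : ℝ} (ht : 0 < t) (F : Finset (ℤ × ℤ)) :
    ∃ K : ℝ, K ≠ 0 ∧ ∀ x : Site → ℤ, hwt t F (half x) = K * zw (1 / t) F x := by
  refine ⟨(∏ _e ∈ F with _e - (0, 1) ∈ F, t) * ∏ _e ∈ F with _e - (1, 0) ∈ F, t, ?_, fun x => ?_⟩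
  · exact mul_ne_zero (Finset.prod_ne_zero_iff.2 fun _ _ => ht.ne')
      (Finset.prod_ne_zero_iff.2 fun _ _ => ht.ne')
  · have key : ∀ (P : Prop) [Decidable P], (if P then (1 : ℝ) else t)
        = t * (if P then 1 / t else 1) := by
      intro P _
      split_ifs
      · field_simp
      · ring
    unfold hwt zw
    simp only [half_eq_iff]
    rw [mul_mul_mul_comm, ← Finset.prod_mul_distrib, ← Finset.prod_mul_distrib]
    congr 1
    · refine Finset.prod_congr rfl fun e _ => ?_
      rw [key]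
    · refine Finset.prod_congr rfl fun e _ => ?_
      rw [key]

/-- The expectation in terms of the doubled heights. -/
theorem hE_eq {t : ℝ} (ht : 0 < t) (F : Finset (ℤ × ℤ)) (Φ : (Site → ℝ) → ℝ) :
    hE t F Φ = ze (1 / t) F fun x => Φ (half x) := by
  obtain ⟨K, hK, hw⟩ := hwt_half ht F
  have gen : ∀ Ψ : (Site → ℝ) → ℝ, ∑ᶠ H ∈ Heights F, hwt t F H * Ψ H
      = K * zs (1 / t) F fun x => Ψ (half x) := by
    intro Ψ
    rw [heights_eq, finsum_mem_image half_inj.injOn]
    unfold zs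
    rw [finsum_mem_eq_finite_toFinset_sum _ (ZH_finite F),
      finsum_mem_eq_finite_toFinset_sum _ (ZH_finite F), Finset.mul_sum]
    refine Finset.sum_congr rfl fun x _ => ?_
    rw [hw]; ring
  have h1 : ∑ᶠ H ∈ Heights F, hwt t F H = K * zs (1 / t) F fun _ => 1 := by
    have := gen fun _ => 1
    simpa only [mul_one] using this
  unfold hE ze
  rw [gen Φ, h1, mul_div_mul_left _ _ hK]

end Vale.Agent.P145.H8
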