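import Vale.Agent.P145.Bdl.FC

/-!
# P145 / H8 / VU : the Dirichlet form of `D` on test functions of the plane
-/

namespace Vale.Agent.P145.H8

open Filter Topology Set MeasureTheory ProbabilityTheory Matrix
open Vale.Agent.P145.PT Vale.Agent.P145.FP Vale.Agent.P145.Dom

theorem V_parU {D : Set (ℝ × ℝ)} (hD : Bornology.IsBounded D) {φ ψ : ℝ × ℝ → ℝ}
    (hφ : TestOn univ φ) (hψ : TestOn univ ψ) :
    V D (fun z => φ z + ψ z) + V D (fun z => φ z - ψ z) = 2 * V D φ + 2 * V D ψ := by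
  have hneg : ∀ {f : ℝ × ℝ → ℝ}, TestOn univ f → ∀ (t : ℝ) (a : ℝ × ℝ → ℝ),
      ∫ z, f z * (t * a z) = t * ∫ z, f z * a z := by
    intro f _ t a
    rw [← integral_const_mul]
    congr 1; funext z; ring
  have exp1 : ∀ {f a b : ℝ × ℝ → ℝ}, TestOn univ f → TestOn D a → TestOn D b →
      ∫ z, f z * (a z + b z) = (∫ z, f z * a z) + ∫ z, f z * b z := by
    intro f a b hf ha hb
    rw [← integral_add (hf.intMul ha.cont) (hf.intMul hb.cont)]
    congr 1; funext z; ring
  have exp2 : ∀ {f a b : ℝ × ℝ → ℝ}, TestOn univ f → TestOn D a → TestOn D b →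
      ∫ z, f z * (a z - b z) = (∫ z, f z * a z) - ∫ z, f z * b z := by
    intro f a b hf ha hb
    rw [← integral_sub (hf.intMul ha.cont) (hf.intMul hb.cont)]
    congr 1; funext z; ring
  have exp3 : ∀ {f g a : ℝ × ℝ → ℝ}, TestOn univ f → TestOn univ g → TestOn D a →
      ∫ z, (f z + g z) * a z = (∫ z, f z * a z) + ∫ z, g z * a z := by
    intro f g a hf hg ha
    rw [← integral_add (hf.intMul ha.cont) (hg.intMul ha.cont)]
    congr 1; funext z; ring
  have exp4 : ∀ {f g a : ℝ × ℝ → ℝ}, TestOn univ f → TestOn univ g → TestOn D a →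
      ∫ z, (f z - g z) * a z = (∫ z, f z * a z) - ∫ z, g z * a z := by
    intro f g a hf hg ha
    rw [← integral_sub (hf.intMul ha.cont) (hg.intMul ha.cont)]
    congr 1; funext z; ring
  apply le_antisymm
  · -- `V(φ+ψ) ≤ 2 V φ + 2 V ψ - V(φ-ψ)`
    have h1 : V D (fun z => φ z + ψ z) ≤ 2 * V D φ + 2 * V D ψ - V D (fun z => φ z - ψ z) := by
      refine V_le fun a ha => ?_
      rw [le_sub_iff_add_le, add_comm, ← le_sub_iff_add_le]
      refine V_le fun b hb => ?_
      rw [le_sub_iff_add_le]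
      have k1 := le_V hD hφ ((ha.add hb).smul (1 / 2))
      have k2 := le_V hD hψ ((ha.sub hb).smul (1 / 2))
      have e1 := energy_smul' (ha.add hb) (1 / 2)
      have e2 := energy_smul' (ha.sub hb) (1 / 2)
      have e3 := energy_par ha hb
      rw [e1, hneg hφ (1 / 2) (fun z => a z + b z), exp1 hφ ha hb] at k1
      rw [e2, hneg hψ (1 / 2) (fun z => a z - b z), exp2 hψ ha hb] at k2
      rw [exp3 hφ hψ ha, exp4 hφ hψ hb]
      linarith only [k1, k2, e3]
    linarith
  · have h1 : V D φ ≤ (V D (fun z => φ z + ψ z) + V D (fun z => φ z - ψ z) - 2 * V D ψ) / 2 := by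
      refine V_le fun a ha => ?_
      have h2 : V D ψ ≤ (V D (fun z => φ z + ψ z) + V D (fun z => φ z - ψ z) -
          2 * ((2 * ∫ z, φ z * a z) - energy a)) / 2 := by
        refine V_le fun b hb => ?_
        have k1 := le_V hD (hφ.add hψ) (ha.add hb)
        have k2 := le_V hD (hφ.sub hψ) (ha.sub hb)
        have e3 := energy_par ha hb
        rw [exp3 hφ hψ (ha.add hb), exp1 hφ ha hb, exp1 hψ ha hb] at k1
        rw [exp4 hφ hψ (ha.sub hb), exp2 hφ ha hb, exp2 hψ ha hb] at k2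
        linarith
      linarith
    linarith

theorem V_smulU {D : Set (ℝ × ℝ)} (hD : Bornology.IsBounded D) {φ : ℝ × ℝ → ℝ}
    (hφ : TestOn univ φ) (t : ℝ) : V D (fun z => t * φ z) = t ^ 2 * V D φ := by
  have key : ∀ (t : ℝ), t ≠ 0 → ∀ φ, TestOn univ φ → V D (fun z => t * φ z) ≤ t ^ 2 * V D φ := by
    intro t ht φ hφ
    refine V_le fun a ha => ?_
    have k := le_V hD hφ (ha.smul t⁻¹)
    rw [energy_smul' ha] at k
    have e1 : ∫ z, φ z * (t⁻¹ * a z) = t⁻¹ * ∫ z, φ z * a z := by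
      rw [← integral_const_mul]
      congr 1; funext z; ring
    have e2 : ∫ z, t * φ z * a z = t * ∫ z, φ z * a z := by
      rw [← integral_const_mul]
      congr 1; funext z; ring
    rw [e1] at k
    rw [e2]
    have h1 := mul_le_mul_of_nonneg_left k (sq_nonneg t)
    have h2 : t ^ 2 * (2 * (t⁻¹ * ∫ z, φ z * a z) - t⁻¹ ^ 2 * energy a) =
        2 * (t * ∫ z, φ z * a z) - energy a := by
      (clear * - ht; field_simp)
    linarith only [h1, h2]
  rcases eq_or_ne t 0 with rfl | ht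
  · have h0 : (fun z => (0 : ℝ) * φ z) = fun _ => 0 := by funext z; ring
    rw [h0]
    have h1 : V D (fun _ => (0 : ℝ)) ≤ 0 := V_le fun a _ => by
      have := energy_nonneg a
      simp only [zero_mul, integral_zero, mul_zero]
      linarith
    have h2 := V_nonneg hD (TestOn.zero univ)
    have h3 : V D (fun _ => (0 : ℝ)) = 0 := le_antisymm h1 h2
    rw [h3]; ring
  · apply le_antisymm (key t ht φ hφ)
    have h1 := key t⁻¹ (inv_ne_zero ht) _ (hφ.smul t)
    have h2 : (fun z => t⁻¹ * (t * φ z)) = φ := by funext z; field_simp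
    rw [h2] at h1
    have h3 := mul_le_mul_of_nonneg_left h1 (sq_nonneg t)
    have h4 : t ^ 2 * (t⁻¹ ^ 2 * V D fun z => t * φ z) = V D fun z => t * φ z := by
      field_simp
    linarith only [h3, h4]

/-- `V` of a linear combination. -/
theorem V_sumU {D : Set (ℝ × ℝ)} (hD : Bornology.IsBounded D) {k : ℕ} {φ : Fin k → ℝ × ℝ → ℝ}
    (hφ : ∀ j, TestOn univ (φ j)) (x : Fin k → ℝ) :
    V D (fun z => ∑ j, x j * φ j z) = ∑ i, ∑ j, x i * x j * dirCov D (φ i) (φ j) := by
  have key := par_sum (E := testSub univ) (Q := fun f => V D f.1)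
    (fun f g => V_parU hD f.2 g.2) (fun t f => V_smulU hD f.2 t) (fun f => V_nonneg hD f.2)
    Finset.univ x (fun j => ⟨φ j, hφ j⟩)
  have e : ((∑ j, x j • (⟨φ j, hφ j⟩ : testSub univ) : testSub univ) : ℝ × ℝ → ℝ) =
      fun z => ∑ j, x j * φ j z := by
    funext z
    simp only [AddSubmonoidClass.coe_finsetSum, SetLike.val_smul, Finset.sum_apply, Pi.smul_apply, smul_eq_mul]
  rw [e] at key
  exact key

theorem dirCov_symmU {D : Set (ℝ × ℝ)} (hD : Bornology.IsBounded D) {φ ψ : ℝ × ℝ → ℝ}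
    (hφ : TestOn univ φ) (hψ : TestOn univ ψ) : Dom.dirCov D φ ψ = dirCov D ψ φ :=
  par_symm (E := testSub univ) (Q := fun f => V D f.1)
    (fun t f => V_smulU hD f.2 t) ⟨φ, hφ⟩ ⟨ψ, hψ⟩

theorem dirCov_dotU {D : Set (ℝ × ℝ)} (hD : Bornology.IsBounded D) (c : ℝ) {k : ℕ}
    {φ : Fin k → ℝ × ℝ → ℝ} (hφ : ∀ j, TestOn univ (φ j)) (x : Fin k → ℝ) :
    x ⬝ᵥ (Matrix.of fun i j => c * dirCov D (φ i) (φ j)).mulVec x =
      c * V D (fun z => ∑ j, x j * φ j z) := by
  rw [V_sumU hD hφ, Finset.mul_sum]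
  simp only [dotProduct, Matrix.mulVec, Matrix.of_apply, Finset.mul_sum]
  exact Finset.sum_congr rfl fun i _ => Finset.sum_congr rfl fun j _ => by ring

theorem dirCov_posSemidefU {D : Set (ℝ × ℝ)} (hD : Bornology.IsBounded D) {c : ℝ} (hc : 0 ≤ c)
    {k : ℕ} {φ : Fin k → ℝ × ℝ → ℝ} (hφ : ∀ j, TestOn univ (φ j)) :
    (Matrix.of fun i j => c * dirCov D (φ i) (φ j)).PosSemidef := by
  refine Matrix.PosSemidef.of_dotProduct_mulVec_nonneg ?_ fun θ => ?_
  · ext i j
    simp [Matrix.conjTranspose_apply, dirCov_symmU hD (hφ i) (hφ j)]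
  · rw [star_trivial, dirCov_dotU hD c hφ θ]
    exact mul_nonneg hc (V_nonneg hD (TestOn.sum hφ θ))

/-- Convergence of the characteristic functions of all linear combinations gives the joint
convergence in law to the centred Gaussian vector. -/
theorem vec_convU {D : Set (ℝ × ℝ)} (hD : Bornology.IsBounded D) {c : ℝ} (hc : 0 ≤ c)
    {Ω : ℕ → Type*} [∀ n, MeasurableSpace (Ω n)] (μ : ∀ n, Measure (Ω n))
    [∀ n, IsProbabilityMeasure (μ n)] (X : ∀ n, Ω n → (ℝ × ℝ → ℝ) → ℝ)
    (hadd : ∀ n ω φ ψ, X n ω (fun z => φ z + ψ z) = X n ω φ + X n ω ψ)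
    (hsmul : ∀ n ω (a : ℝ) φ, X n ω (fun z => a * φ z) = a * X n ω φ)
    (hm : ∀ n φ, AEMeasurable (fun ω => X n ω φ) (μ n))
    (k : ℕ) (φ : Fin k → ℝ × ℝ → ℝ) (hφ : ∀ j, TestOn univ (φ j))
    (hch : ∀ x : Fin k → ℝ, Tendsto
      (fun n => ∫ ω, Complex.exp ((X n ω (fun z => ∑ j, x j * φ j z) : ℂ) * Complex.I) ∂μ n) atTop
      (𝓝 (Complex.exp (-((c * V D (fun z => ∑ j, x j * φ j z) : ℝ) : ℂ) / 2)))) :
    (Matrix.of fun i j => c * dirCov D (φ i) (φ j)).PosSemidef ∧
    TendstoInDistribution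
      (fun n ω => (WithLp.toLp 2 (fun j => X n ω (φ j)) : EuclideanSpace ℝ (Fin k))) atTop
      (id : EuclideanSpace ℝ (Fin k) → EuclideanSpace ℝ (Fin k)) μ
      (multivariateGaussian 0 (Matrix.of fun i j => c * dirCov D (φ i) (φ j))) := by
  have hpsd := dirCov_posSemidefU hD hc hφ
  refine ⟨hpsd, ?_⟩
  have hX : ∀ n, AEMeasurable (fun ω =>
      (WithLp.toLp 2 (fun j => X n ω (φ j)) : EuclideanSpace ℝ (Fin k))) (μ n) := by
    intro n
    exact (WithLp.measurable_toLp 2 (Fin k → ℝ)).comp_aemeasurable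
      (aemeasurable_pi_lambda _ fun j => hm n (φ j))
  refine ⟨hX, by fun_prop, ?_⟩
  refine ProbabilityMeasure.tendsto_of_tendsto_charFun fun t => ?_
  have hid : (multivariateGaussian 0 (Matrix.of fun i j => c * dirCov D (φ i) (φ j))).map
      (id : EuclideanSpace ℝ (Fin k) → EuclideanSpace ℝ (Fin k)) =
      multivariateGaussian 0 (Matrix.of fun i j => c * dirCov D (φ i) (φ j)) := Measure.map_id
  simp only [ProbabilityMeasure.coe_mk, hid]
  rw [charFun_multivariateGaussian hpsd]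
  have h1 := hch (fun j => t j)
  have h2 : Complex.exp (((inner ℝ t (0 : EuclideanSpace ℝ (Fin k)) : ℝ) : ℂ) * Complex.I -
      ((t : Fin k → ℝ) ⬝ᵥ (Matrix.of fun i j => c * dirCov D (φ i) (φ j)).mulVec t : ℝ) / 2) =
      Complex.exp (-((c * V D (fun z => ∑ j, t j * φ j z) : ℝ) : ℂ) / 2) := by
    rw [dirCov_dotU hD c hφ, inner_zero_right]
    congr 1
    push_cast
    ring
  rw [h2]
  refine h1.congr fun n => ?_
  have hlin : ∀ ω, X n ω (fun z => ∑ j, t j * φ j z) = ∑ j, t j * X n ω (φ j) := by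
    intro ω
    have gen : ∀ s : Finset (Fin k), X n ω (fun z => ∑ j ∈ s, t j * φ j z) =
        ∑ j ∈ s, t j * X n ω (φ j) := by
      classical
      intro s
      induction s using Finset.induction_on with
      | empty =>
        have := hsmul n ω 0 (fun _ => 0)
        simpa using this
      | insert i s hi ih =>
        simp only [Finset.sum_insert hi]
        rw [hadd n ω (fun z => t i * φ i z) (fun z => ∑ j ∈ s, t j * φ j z), ih, hsmul]
    exact gen _
  change ∫ ω, Complex.exp ((X n ω (fun z => ∑ j, t j * φ j z) : ℂ) * Complex.I) ∂μ n =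
    charFun ((μ n).map (fun ω =>
      (WithLp.toLp 2 (fun j => X n ω (φ j)) : EuclideanSpace ℝ (Fin k)))) t
  rw [charFun_apply, integral_map (hX n) (by fun_prop)]
  refine integral_congr_ae (ae_of_all _ fun ω => ?_)
  simp only []
  rw [hlin ω]
  congr 3

end Vale.Agent.P145.H8
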