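import Vale.Agent.P145.H8.Squeeze
import Vale.Agent.P145.H8.Ht
import Vale.Agent.P145.H8.VU

/-!
# P145 / H8 / Main : the scaling limit in general domains
-/

namespace Vale.Agent.P145.H8

open Filter Topology Set MeasureTheory ProbabilityTheory
open Vale.Agent.P145.PT Vale.Agent.P145.FP Vale.Agent.P145.Dom Vale.Agent.P145.Top
open Vale.Agent.P145.FA (PlIn)

/-! ### Gaussian moments -/

theorem gm_even (v : ℝ) (q : ℕ) :
    gm v (2 * q) = (2 * q).factorial / (2 ^ q * q.factorial) * v ^ q := by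
  induction q with
  | zero => simp [gm]
  | succ q ih =>
    have e : 2 * (q + 1) = 2 * q + 2 := by ring
    rw [e]
    show ((2 * q : ℕ) + 1 : ℝ) * v * gm v (2 * q) = _
    rw [ih, Nat.factorial_succ (2 * q + 1), Nat.factorial_succ (2 * q), Nat.factorial_succ q]
    have h1 : ((2 * q).factorial : ℝ) ≠ 0 := by exact_mod_cast (Nat.factorial_pos _).ne'
    have h2 : (q.factorial : ℝ) ≠ 0 := by exact_mod_cast (Nat.factorial_pos _).ne'
    have h3 : ((q : ℝ) + 1) ≠ 0 := by positivity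
    push_cast
    field_simp
    ring

theorem gm_odd (v : ℝ) (q : ℕ) : gm v (2 * q + 1) = 0 := by
  induction q with
  | zero => simp [gm]
  | succ q ih =>
    have e : 2 * (q + 1) + 1 = (2 * q + 1) + 2 := by ring
    rw [e]
    show ((2 * q + 1 : ℕ) + 1 : ℝ) * v * gm v (2 * q + 1) = _
    rw [ih, mul_zero]

/-! ### Polygons -/

/-- Eventually all enclosed squares are contained in a given open neighbourhood of the closure of
the domain, if the exterior is connected. -/
theorem approx_outer_gen {D : Set (ℝ × ℝ)} {δ : ℕ → ℝ} {N : ℕ → ℕ}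
    {p : ∀ n, ZMod (N n) → ℤ × ℤ} {F : ℕ → Finset (ℤ × ℤ)} (hD : IsOpen D)
    (hb : Bornology.IsBounded D) (hext : IsPreconnected (closure D)ᶜ) (h : Approx D δ N p F)
    {U : Set (ℝ × ℝ)} (hU : IsOpen U) (hDU : closure D ⊆ U) :
    ∀ᶠ n in atTop, ∀ f ∈ F n, Dom.sq (δ n) f ⊆ U := by
  have hc : IsCompact (closure D) := hb.isCompact_closure
  obtain ⟨s, hs, hsU⟩ := hc.exists_cthickening_subset_open hU hDU
  obtain ⟨ε, hε, hεs⟩ := enclosed_thickening_gen hb hext hs
  filter_upwards [trace_near hD hb h hε] with n hn f hf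
  have hδ := h.pos n
  have h1 := sq_subset_closure hδ hf
  have h2 := inn_subset_enclosed hδ (h.poly n) (h.encl n)
  have h3 := hεs _ (hn.trans (Metric.thickening_subset_of_subset ε frontier_subset_closure))
  have h4 : closure (inn (δ n) (F n)) ⊆ Metric.cthickening s D :=
    closure_minimal ((h2.trans h3).trans (Metric.thickening_subset_cthickening _ _))
      Metric.isClosed_cthickening
  exact (h1.trans h4).trans
    ((Metric.cthickening_subset_of_subset s subset_closure).trans hsU)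

theorem outer_gen {D : Set (ℝ × ℝ)} {δ : ℕ → ℝ} {N : ℕ → ℕ}
    {p : ∀ n, ZMod (N n) → ℤ × ℤ} {F : ℕ → Finset (ℤ × ℤ)} (hD : IsOpen D)
    (hb : Bornology.IsBounded D) (hext : IsPreconnected (closure D)ᶜ) (h : Approx D δ N p F) :
    ∀ D' : Set (ℝ × ℝ), IsOpen D' → Bornology.IsBounded D' → closure D ⊆ D' →
      ∀ᶠ n in atTop, F n ⊆ Fs (δ n) D' := by
  intro D' hD' hb' hcl
  filter_upwards [approx_outer_gen hD hb hext h hD' hcl] with n hn f hf
  rw [Top.mem_Fs (h.pos n) hb']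
  exact fun z hz => hn f hf ⟨⟨hz.1, hz.2.1⟩, hz.2.2⟩

/-- The last part of `Conv`, from the convergence of the characteristic functions. -/
theorem conv_of_char_gen {D : Set (ℝ × ℝ)} (hb : Bornology.IsBounded D) {t s : ℝ} {δ : ℕ → ℝ} {N : ℕ → ℕ}
    {p : ∀ n, ZMod (N n) → ℤ × ℤ} {F : ℕ → Finset (ℤ × ℤ)}
    [∀ n, IsProbabilityMeasure (Dom.law t (p n) (F n))] (H : ∀ _ : ℕ, Conf → Site → ℝ)
    (hch : ∀ φ, TestOn D φ → Tendsto
      (fun n => ∫ σ, Complex.exp ((Dom.fldD (F n) (H n σ) (δ n) φ : ℂ) * Complex.I)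
        ∂Dom.law t (p n) (F n)) atTop
      (𝓝 (Complex.exp (-((s ^ 2 * (2 * Real.pi) * V D φ : ℝ) : ℂ) / 2))))
    (k : ℕ) (φ : Fin k → ℝ × ℝ → ℝ) (hφ : ∀ j, TestOn D (φ j)) :
    (Matrix.of (fun i j => s ^ 2 * (2 * Real.pi * Dom.dirCov D (φ i) (φ j)))).PosSemidef ∧
    TendstoInDistribution (fun (n : ℕ) (σ : Conf) =>
      (WithLp.toLp 2 (fun j => Dom.fldD (F n) (H n σ) (δ n) (φ j)) : EuclideanSpace ℝ (Fin k)))
      atTop (id : EuclideanSpace ℝ (Fin k) → EuclideanSpace ℝ (Fin k))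
      (fun n => Dom.law t (p n) (F n))
      (multivariateGaussian 0
        (Matrix.of (fun i j => s ^ 2 * (2 * Real.pi * Dom.dirCov D (φ i) (φ j))))) := by
  have hc : 0 ≤ s ^ 2 * (2 * Real.pi) := by positivity
  have e : (Matrix.of (fun i j => s ^ 2 * (2 * Real.pi * Dom.dirCov D (φ i) (φ j)))) =
      Matrix.of (fun i j => s ^ 2 * (2 * Real.pi) * Dom.dirCov D (φ i) (φ j)) := by
    ext i j
    simp only [Matrix.of_apply]
    ring
  rw [e]
  exact vec_conv hb hc (fun n => Dom.law t (p n) (F n))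
    (fun n σ φ => Dom.fldD (F n) (H n σ) (δ n) φ) (fun n σ φ ψ => fldD_add _ _ _ _ _)
    (fun n σ a φ => fldD_smul _ _ _ _ _) (fun n φ => law_aemeasurable _ _ _ _) hch k φ hφ

/-- The conclusion for polygons, from the convergence of all moments of single test functions. -/
theorem conv_of_mom_gen {t κ s : ℝ} (ht : 0 < t) (hs : κ = s ^ 2 * (2 * Real.pi))
    {D : Set (ℝ × ℝ)} (hb : Bornology.IsBounded D)
    (hmom : ∀ (δ : ℕ → ℝ) (N : ℕ → ℕ) (p : ∀ n, ZMod (N n) → ℤ × ℤ) (F : ℕ → Finset (ℤ × ℤ)),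
      Approx D δ N p F → ∀ φ : ℝ × ℝ → ℝ, TestOn D φ → ∀ k : ℕ,
      Tendsto (fun n => ze (1 / t) (F n) (fun x => zf (F n) (δ n) φ x ^ k)) atTop
        (𝓝 (gm (κ * V D φ) k))) : Dom.Conv t s D := by
  intro δ N p F hA
  have hprob : ∀ n, IsProbabilityMeasure (Dom.law t (p n) (F n)) := fun n => law_prob ht.le (p n) (F n)
  refine ⟨hprob, fun n => ae_exists_isHt (hA.poly n) (hA.encl n), ?_⟩
  intro H hH k φ hφ
  refine conv_of_char_gen hb H (fun ψ hψ => ?_) k φ hφ
  have key := charfun_of_moments (l := atTop) (fun n => Dom.law t (p n) (F n))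
    (fun n σ => Dom.fldD (F n) (H n σ) (δ n) ψ) (fun n j => law_integrable _ _ _ _)
    (v := κ * V D ψ) (fun j => by
      refine (hmom δ N p F hA ψ hψ j).congr fun n => ?_
      have h := law_mom ht (hA.poly n) (hA.encl n) (hH n) (δ n) (Finset.range j) (fun _ => ψ)
      simp only [Finset.prod_const, Finset.card_range] at h
      exact h.symm)
  have e1 : ((-(κ * V D ψ / 2) : ℝ) : ℂ) = -((s ^ 2 * (2 * Real.pi) * V D ψ : ℝ) : ℂ) / 2 := by
    rw [hs]; push_cast; ring
  rw [e1] at key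
  refine key.congr fun n => ?_
  refine integral_congr_ae (ae_of_all _ fun σ => ?_)
  simp only []
  rw [mul_comm]

/-! ### Finite sets of faces -/

theorem approxF_in {D : Set (ℝ × ℝ)} {δ : ℕ → ℝ} {F : ℕ → Finset (ℤ × ℤ)} (hA : ApproxF D δ F)
    (D' : Set (ℝ × ℝ)) (hb : Bornology.IsBounded D') (hD' : closure D' ⊆ D) :
    ∀ᶠ n in atTop, Fs (δ n) D' ⊆ F n := by
  filter_upwards [hA.cpt (closure D') hD' hb.isCompact_closure] with n hn
  intro f hf
  have hδ := hA.pos n
  have hsub : Top.sq (δ n) f ⊆ D' := (Top.mem_Fs hδ hb).1 hf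
  have hmem : ((δ n * f.1, δ n * f.2) : ℝ × ℝ) ∈ Top.sq (δ n) f := by
    refine ⟨le_rfl, ?_, le_rfl, ?_⟩ <;> simp only <;> linarith
  have := hn _ (subset_closure (hsub hmem))
  have e1 : δ n * (f.1 : ℝ) / δ n = f.1 := by field_simp
  have e2 : δ n * (f.2 : ℝ) / δ n = f.2 := by field_simp
  simp only [e1, e2, Int.floor_intCast] at this
  exact this

theorem approxF_out {D : Set (ℝ × ℝ)} {δ : ℕ → ℝ} {F : ℕ → Finset (ℤ × ℤ)}
    (hbD : Bornology.IsBounded D) (hA : ApproxF D δ F) :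
    ∀ D' : Set (ℝ × ℝ), IsOpen D' → Bornology.IsBounded D' → closure D ⊆ D' →
      ∀ᶠ n in atTop, F n ⊆ Fs (δ n) D' := by
  intro D' hD' hb hcl
  obtain ⟨s, hs, hsU⟩ := hbD.isCompact_closure.exists_thickening_subset_open hD' hcl
  filter_upwards [hA.near (s / 2) (by positivity),
    hA.lim.eventually_lt_const (show (0 : ℝ) < s / 2 by positivity)] with n h1 h2 f hf
  have hδ := hA.pos n
  rw [Top.mem_Fs hδ hb]
  intro z hz
  apply hsU
  obtain ⟨w, hw, hd⟩ := h1 f hf
  rw [Metric.mem_thickening_iff]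
  refine ⟨w, subset_closure hw, ?_⟩
  have h3 : dist z (δ n * f.1, δ n * f.2) ≤ δ n := by
    obtain ⟨a1, a2, a3, a4⟩ := hz
    rw [Prod.dist_eq, Real.dist_eq, Real.dist_eq]
    refine max_le (abs_le.2 ⟨?_, ?_⟩) (abs_le.2 ⟨?_, ?_⟩) <;> simp only <;> linarith
  have h4 := dist_triangle z (δ n * (f.1 : ℝ), δ n * (f.2 : ℝ)) w
  linarith

theorem exists_meas' {c : ℝ} (hc : 0 < c) (F : Finset (ℤ × ℤ)) :
    ∃ μ : Measure Om, IsProbabilityMeasure μ ∧ (∀ A : Om → ℝ, Integrable A μ) ∧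
      ∀ A : Om → ℝ, ∫ ω, A ω ∂μ = ze c F (fun x => A (vh x)) := by
  classical
  have hZ := zs_pos' hc F
  set Z : ℝ := zs c F (fun _ => 1) with hZd
  set T := (ZH_finite F).toFinset with hT
  have hw : ∀ x, 0 ≤ zw c F x / Z := fun x => div_nonneg (zw_pos hc F x).le hZ.le
  have hint : ∀ (A : Om → ℝ) (x : Site → ℤ),
      Integrable A (ENNReal.ofReal (zw c F x / Z) • Measure.dirac (vh x)) :=
    fun A x => (integrable_dirac (by simp)).smul_measure ENNReal.ofReal_ne_top
  refine ⟨∑ x ∈ T, ENNReal.ofReal (zw c F x / Z) • Measure.dirac (vh x), ⟨?_⟩, ?_, ?_⟩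
  · rw [Measure.coe_finsetSum, Finset.sum_apply]
    simp only [Measure.smul_apply, measure_univ, smul_eq_mul, mul_one]
    rw [← ENNReal.ofReal_sum_of_nonneg (fun x _ => hw x), ← Finset.sum_div]
    have : ∑ x ∈ T, zw c F x = Z := by
      rw [hZd, zs_eq]
      exact Finset.sum_congr rfl fun x _ => (mul_one _).symm
    rw [this, div_self hZ.ne', ENNReal.ofReal_one]
  · intro A
    exact integrable_finsetSum_measure.2 fun x _ => hint _ x
  · intro A
    rw [integral_finsetSum_measure fun x _ => hint A x]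
    have h1 : ∀ x ∈ T, ∫ ω, A ω ∂(ENNReal.ofReal (zw c F x / Z) • Measure.dirac (vh x)) =
        zw c F x * A (vh x) / Z := by
      intro x _
      rw [integral_smul_measure, integral_dirac, ENNReal.toReal_ofReal (hw x), smul_eq_mul]
      ring
    rw [Finset.sum_congr rfl h1, ← Finset.sum_div]
    unfold ze
    rw [zs_eq c F (fun x => A (vh x)), hT, hZd]

/-- The field tested against `φ`, as a function of the vertex heights. -/
noncomputable def XX (F : Finset (ℤ × ℤ)) (δ : ℝ) (ω : ℤ × ℤ → ℝ) (φ : ℝ × ℝ → ℝ) : ℝ :=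
  Dom.fldD F (Sum.elim ω fun _ => 0) δ φ

theorem XX_vh (F : Finset (ℤ × ℤ)) (δ : ℝ) (x : Site → ℤ) (φ : ℝ × ℝ → ℝ) :
    XX F δ (vh x) φ = Dom.fldD F (half x) δ φ := by
  unfold XX Dom.fldD vh half
  rfl

/-- The law and the moments, from the convergence of all moments of single test functions. -/
theorem law_of_mom {t κ s : ℝ} (ht : 0 < t) (hs : κ = s ^ 2 * (2 * Real.pi))
    {D : Set (ℝ × ℝ)} (hb : Bornology.IsBounded D) {T : (ℝ × ℝ → ℝ) → Prop}
    (hTU : ∀ φ, T φ → TestOn univ φ)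
    (hTs : ∀ (k : ℕ) (φ : Fin k → ℝ × ℝ → ℝ), (∀ j, T (φ j)) → ∀ x : Fin k → ℝ,
      T (fun z => ∑ j, x j * φ j z))
    (hmom : ∀ (δ : ℕ → ℝ) (F : ℕ → Finset (ℤ × ℤ)),
      ApproxF D δ F → ∀ φ : ℝ × ℝ → ℝ, T φ → ∀ k : ℕ,
      Tendsto (fun n => ze (1 / t) (F n) (fun x => zf (F n) (δ n) φ x ^ k)) atTop
        (𝓝 (gm (κ * V D φ) k))) : LawF t s D T ∧ MomF t s D T := by
  have e0 : ∀ φ, κ * V D φ = s ^ 2 * (2 * Real.pi * JG.V D φ) := by
    intro φ
    show κ * JG.V D φ = _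
    rw [hs]; ring
  constructor
  · intro δ F hA k φ hφ
    have hc : 0 ≤ s ^ 2 * (2 * Real.pi) := by positivity
    choose μ hprob hint hμA using fun n => exists_meas' (c := 1 / t) (by positivity) (F n)
    have hconv := vec_convU hb hc μ (fun n ω φ => XX (F n) (δ n) ω φ)
      (fun n ω φ ψ => fldD_add _ _ _ _ _) (fun n ω a φ => fldD_smul _ _ _ _ _)
      (fun n φ => (hint n _).aemeasurable) k φ (fun j => hTU _ (hφ j)) (fun x => by
        set ψ : ℝ × ℝ → ℝ := fun z => ∑ j, x j * φ j z with hψd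
        have hψ : T ψ := hTs k φ hφ x
        have key := charfun_of_moments (l := atTop) μ (fun n ω => XX (F n) (δ n) ω ψ)
          (fun n j => hint n _) (v := κ * V D ψ) (fun j => by
            refine (hmom δ F hA ψ hψ j).congr fun n => ?_
            rw [hμA n (fun ω => XX (F n) (δ n) ω ψ ^ j)]
            rfl)
        have e1 : ((-(κ * V D ψ / 2) : ℝ) : ℂ)
            = -((s ^ 2 * (2 * Real.pi) * V D ψ : ℝ) : ℂ) / 2 := by
          rw [hs]; push_cast; ring
        rw [e1] at key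
        refine key.congr fun n => ?_
        refine integral_congr_ae (ae_of_all _ fun σ => ?_)
        simp only []
        rw [mul_comm])
    have e : (Matrix.of (fun i j => s ^ 2 * (2 * Real.pi * JG.dirCov D (φ i) (φ j)))) =
        Matrix.of (fun i j => s ^ 2 * (2 * Real.pi) * Dom.dirCov D (φ i) (φ j)) := by
      ext i j
      simp only [Matrix.of_apply]
      rw [JG.dirCov_eq]
      ring
    rw [e]
    refine ⟨hconv.1, fun g => ?_⟩
    have h1 := hconv.2.tendsto
    have h2 := ProbabilityMeasure.tendsto_iff_forall_integral_tendsto.1 h1 g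
    simp only [ProbabilityMeasure.coe_mk, Measure.map_id] at h2
    refine h2.congr fun n => ?_
    rw [hE_eq ht]
    have hX : AEMeasurable (fun ω : Om =>
        (WithLp.toLp 2 (fun j => XX (F n) (δ n) ω (φ j)) : EuclideanSpace ℝ (Fin k))) (μ n) :=
      (WithLp.measurable_toLp 2 (Fin k → ℝ)).comp_aemeasurable
        (aemeasurable_pi_lambda _ fun j => (hint n _).aemeasurable)
    rw [integral_map hX g.continuous.aestronglyMeasurable, hμA n]
    rfl
  · intro δ F hA φ hφ q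
    constructor
    · have h := hmom δ F hA φ hφ (2 * q)
      rw [gm_even, e0] at h
      refine h.congr fun n => ?_
      rw [hE_eq ht]
      rfl
    · have h := hmom δ F hA φ hφ (2 * q + 1)
      rw [gm_odd] at h
      refine h.congr fun n => ?_
      rw [hE_eq ht]
      rfl

end Vale.Agent.P145.H8
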