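import Vale.Agent.P145.H8.Bdry2

/-!
# P145 / H8 / Nec : necessity of the stability, and the assembly
-/

namespace Vale.Agent.P145.H8

open Filter Topology Set MeasureTheory ProbabilityTheory
open Vale.Agent.P145.PT Vale.Agent.P145.FP Vale.Agent.P145.Dom Vale.Agent.P145.Top
open Vale.Agent.P145.FA (PlIn)

/-- All inputs, for the sequences of meshes. -/
structure Ins (c κ : ℝ) : Prop where
  cpos : 0 < c
  κpos : 0 < κ
  mono : S_mono c
  key : ∀ δ : ℕ → ℝ, (∀ n, 0 < δ n) → Tendsto δ atTop (𝓝 0) → S_key c κ δ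
  mb : ∀ δ : ℕ → ℝ, (∀ n, 0 < δ n) → Tendsto δ atTop (𝓝 0) → S_mb c δ
  l2 : ∀ δ : ℕ → ℝ, (∀ n, 0 < δ n) → Tendsto δ atTop (𝓝 0) → S_l2 c δ

/-- If `D` is not stable, there are approximations with too large second moments. -/
theorem exists_bad {c κ : ℝ} (H : Ins c κ) {D : Set (ℝ × ℝ)} (hop : IsOpen D)
    (hb : Bornology.IsBounded D) {φ : ℝ × ℝ → ℝ} (hφ : TestOn D φ) (hφ0 : ∀ z, 0 ≤ φ z) {η : ℝ}
    (hbad : ∀ s : ℝ, 0 < s → V D φ + η < V (Metric.thickening s D) φ) :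
    ∃ (δ : ℕ → ℝ) (F : ℕ → Finset (ℤ × ℤ)), ApproxF D δ F ∧
      (∀ j, κ * (V D φ + η) ≤ ze c (F j) (fun x => zf (F j) (δ j) φ x ^ 2)) ∧
      ∃ C : ℝ, ∀ᶠ j in atTop, ze c (F j) (fun x => zf (F j) (δ j) φ x ^ 4) ≤ C := by
  classical
  set δ : ℕ → ℝ := fun n => 1 / ((n : ℝ) + 1) with hδd
  have hδ : ∀ n, 0 < δ n := fun n => by rw [hδd]; positivity
  have hlim : Tendsto δ atTop (𝓝 0) := tendsto_one_div_add_atTop_nhds_zero_nat
  obtain ⟨U, hU⟩ : ∃ U : Ultrafilter ℕ, (U : Filter ℕ) ≤ atTop :=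
    ⟨Ultrafilter.of atTop, Ultrafilter.of_le atTop⟩
  have hstep : ∀ j : ℕ, ∃ (n : ℕ) (E : Set (ℝ × ℝ)), j ≤ n ∧ IsOpen E ∧ closure D ⊆ E ∧
      E ⊆ Metric.thickening (2 * (1 / ((j : ℝ) + 1))) D ∧
      κ * (V D φ + η) ≤ ze c (Fs (δ n) E) (fun x => zf (Fs (δ n) E) (δ n) φ x ^ 2) := by
    intro j
    set g : ℝ := 1 / ((j : ℝ) + 1) with hg
    have hg0 : 0 < g := by rw [hg]; positivity
    have hSo : (Sout g D).Finite := Sout_finite hg0 hb
    obtain ⟨so, hso, hGo⟩ := H.key δ hδ hlim 0 (g / 4) _ (nest_gun hg0 hSo) (gun_ball hSo) U hU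
    set Do := Metric.thickening so (gun g (Sout g D)) with hDo
    have hDDo : closure D ⊆ Do := by
      refine (closure_minimal (subset_gun_Sout hg0 D) (isCompact_gun hSo).isClosed).trans ?_
      exact Metric.self_subset_thickening hso.1 _
    have hDob : Bornology.IsBounded Do := (isCompact_gun hSo).isBounded.thickening
    have hDosub : Do ⊆ Metric.thickening (2 * g) D :=
      gun_Sout_subset (s := so) (by linarith only [hg0, hso.2]) D
    obtain ⟨s, hs, hsDo⟩ := hb.isCompact_closure.exists_thickening_subset_open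
      Metric.isOpen_thickening hDDo
    have h1 : V D φ + η < V Do φ := by
      refine (hbad s hs).trans_le (V_mono hDob ?_ hφ)
      exact (Metric.thickening_subset_of_subset s subset_closure).trans hsDo
    have hl := hGo φ (hφ.mono (subset_closure.trans hDDo)) hφ0 2
    have e2 : gm (κ * V Do φ) 2 = κ * V Do φ := by
      have := gm_even (κ * V Do φ) 1
      rw [show 2 * 1 = 2 from rfl] at this
      rw [this]
      norm_num
    rw [e2] at hl
    have h2 : κ * (V D φ + η) < κ * V Do φ := mul_lt_mul_of_pos_left h1 H.κpos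
    have h3 := hl.eventually_const_lt h2
    have h4 : ∀ᶠ n in (U : Filter ℕ), j ≤ n := hU (eventually_ge_atTop j)
    obtain ⟨n, hn1, hn2⟩ := (h3.and h4).exists
    refine ⟨n, Do, hn2, Metric.isOpen_thickening, hDDo, hDosub, ?_⟩
    have e3 : ze c (Fs (δ n) Do) (fun x => zf (Fs (δ n) Do) (δ n) φ x ^ 2)
        = EE c (δ n) Do (fun ω => hv (δ n) φ ω ^ 2) := by
      unfold EE
      exact ze_congr' c _ fun x hx => by rw [zf_eq_hv hx]
    rw [e3]
    exact hn1.le
  choose N E hN hEo hEcl hEsub hEmom using hstep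
  have hNlim : Tendsto N atTop atTop := tendsto_atTop_mono hN tendsto_id
  have hδ' : ∀ j, 0 < δ (N j) := fun j => hδ _
  have hlim' : Tendsto (fun j => δ (N j)) atTop (𝓝 0) := hlim.comp hNlim
  have hthick : ∀ j : ℕ, E j ⊆ Metric.thickening 2 D := fun j =>
    (hEsub j).trans (Metric.thickening_mono (by
      have : 1 / ((j : ℝ) + 1) ≤ 1 := by
        rw [div_le_one (by positivity)]
        linarith [(Nat.cast_nonneg j : (0 : ℝ) ≤ j)]
      linarith) D)
  have hEb : ∀ j, Bornology.IsBounded (E j) := fun j => hb.thickening.subset (hthick j)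
  refine ⟨fun j => δ (N j), fun j => Fs (δ (N j)) (E j), ?_, hEmom, ?_⟩
  · refine ⟨hδ', hlim', ?_, ?_⟩
    · intro ε hε
      have h1 : Tendsto (fun j : ℕ => 2 * (1 / ((j : ℝ) + 1))) atTop (𝓝 (2 * 0)) :=
        tendsto_one_div_add_atTop_nhds_zero_nat.const_mul 2
      rw [mul_zero] at h1
      filter_upwards [h1.eventually_lt_const hε] with j hj f hf
      have h2 : Top.sq (δ (N j)) f ⊆ E j := (Top.mem_Fs (hδ' j) (hEb j)).1 hf
      have hmem : ((δ (N j) * f.1, δ (N j) * f.2) : ℝ × ℝ) ∈ Top.sq (δ (N j)) f := by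
        have := hδ' j
        refine ⟨le_rfl, ?_, le_rfl, ?_⟩ <;> simp only <;> linarith
      obtain ⟨z, hz, hd⟩ := Metric.mem_thickening_iff.1 (hEsub j (h2 hmem))
      exact ⟨z, hz, hd.trans hj⟩
    · intro K hK hKc
      obtain ⟨s, hs, hsK⟩ := hKc.exists_thickening_subset_open hop hK
      filter_upwards [hlim'.eventually_lt_const hs] with j hj z hz
      rw [Top.mem_Fs (hδ' j) (hEb j)]
      intro w hw
      refine hEcl j (subset_closure (hsK ?_))
      rw [Metric.mem_thickening_iff]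
      refine ⟨z, hz, ?_⟩
      have h1 : z ∈ gsq (δ (N j)) (⌊z.1 / δ (N j)⌋, ⌊z.2 / δ (N j)⌋) := mem_gsq_floor (hδ' j) z
      have h2 : w ∈ gsq (δ (N j)) (⌊z.1 / δ (N j)⌋, ⌊z.2 / δ (N j)⌋) := hw
      exact (gsq_dist h2 h1).trans_lt hj
  · obtain ⟨R, hR⟩ := (hb.thickening (δ := 2)).subset_ball (0 : ℝ × ℝ)
    obtain ⟨C, hC⟩ := H.mb _ hδ' hlim' (Metric.ball 0 R) Metric.isOpen_ball
      Metric.isBounded_ball φ (hφ.mono (subset_univ _)) hφ0 4
    refine ⟨C, hC.mono fun j hj => ?_⟩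
    have h1 : Fs (δ (N j)) (E j) ⊆ Fs (δ (N j)) (Metric.ball 0 R) :=
      Fs_mono (hδ' j) ((hthick j).trans hR) Metric.isBounded_ball
    exact (ze_verts_le H.mono (hδ' j) h1 hφ.cs hφ0 4).trans hj

end Vale.Agent.P145.H8
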