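import Vale.Agent.P145.H8.Stab

/-!
# P145 / H8 / Squeeze : the squeeze for stable bounded open sets
-/

namespace Vale.Agent.P145.H8

open Filter Topology Set MeasureTheory
open Vale.Agent.P145.PT Vale.Agent.P145.FP Vale.Agent.P145.Dom Vale.Agent.P145.Top

/-- Outer stability of the Dirichlet form. -/
def StableP (D : Set (ℝ × ℝ)) : Prop :=
  ∀ φ : ℝ × ℝ → ℝ, TestOn D φ → (∀ z, 0 ≤ φ z) → ∀ η : ℝ, 0 < η →
    ∃ s : ℝ, 0 < s ∧ V (Metric.thickening s D) φ ≤ V D φ + η

theorem stable_of_circ {D : Set (ℝ × ℝ)} (hD : IsOpen D) (hb : Bornology.IsBounded D)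
    (h : Circ D) : StableP D := fun _ hφ hφ0 _ hη =>
  stab_loc hD hb (extLoc_of_circ hD hb h) hφ hφ0 hη

/-- **The squeeze.** -/
theorem squeeze_gen {c κ : ℝ} {δ : ℕ → ℝ} (hm : S_mono c) (hδ : ∀ n, 0 < δ n)
    (hkey : S_key c κ δ) {D : Set (ℝ × ℝ)} (hop : IsOpen D) (hb : Bornology.IsBounded D)
    (hstab : StableP D) {F : ℕ → Finset (ℤ × ℤ)}
    (hin : ∀ D' : Set (ℝ × ℝ), IsOpen D' → Bornology.IsBounded D' → closure D' ⊆ D →
      ∀ᶠ n in atTop, Fs (δ n) D' ⊆ F n)
    (hout : ∀ D' : Set (ℝ × ℝ), IsOpen D' → Bornology.IsBounded D' → closure D ⊆ D' →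
      ∀ᶠ n in atTop, F n ⊆ Fs (δ n) D')
    {φ : ℝ × ℝ → ℝ} (hφ : TestOn D φ) (k : ℕ) :
    Tendsto (fun n => ze c (F n) (fun x => zf (F n) (δ n) φ x ^ k)) atTop
      (𝓝 (gm (κ * V D φ) k)) := by
  rw [tendsto_iff_ultrafilter]
  intro U hU
  obtain ⟨p, m, hp, hm', hp0, hm0, hpm⟩ := exists_decomp hop hb hφ
  have hφe : φ = fun z => p z - m z := funext hpm
  set ψ : ℝ × ℝ → ℝ := fun z => p z + m z with hψ
  have hψT : TestOn D ψ := hp.add hm'
  have hψ0 : ∀ z, 0 ≤ ψ z := fun z => add_nonneg (hp0 z) (hm0 z)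
  rw [Metric.tendsto_nhds]
  intro ε hε
  -- continuity of the Gaussian moments
  obtain ⟨η1, hη1, hc1⟩ := Metric.continuous_iff.1
    ((gm_cont k).1.comp (continuous_const.mul continuous_id : Continuous fun v : ℝ => κ * v))
    (V D ψ) (ε / 8) (by (clear * - hε; positivity))
  obtain ⟨η2, hη2, hc2⟩ := Metric.continuous_iff.1
    ((gm_cont k).1.comp (continuous_const.mul continuous_id : Continuous fun v : ℝ => κ * v))
    (V D φ) (ε / 4) (by positivity)
  set η : ℝ := min η1 η2 / 2 with hη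
  have hη0 : 0 < η := by have := lt_min hη1 hη2; (clear * - hη1 hη2; positivity)
  have hηη1 : η < η1 := by
    have := lt_min hη1 hη2
    have h2 := min_le_left η1 η2
    linarith only [hη, hη0, h2]
  have hηη2 : η < η2 := by
    have := lt_min hη1 hη2
    have h2 := min_le_right η1 η2
    linarith only [hη, hη0, h2]
  -- inner and outer scales
  obtain ⟨s1, hs1, hV1⟩ := inner_stab hop hb hψT hη0
  obtain ⟨s2, hs2, hV2⟩ := inner_stab hop hb hφ hη0
  obtain ⟨s3, hs3, hT3⟩ := hp.inner hop hb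
  obtain ⟨s4, hs4, hT4⟩ := hm'.inner hop hb
  obtain ⟨s5, hs5, hV5⟩ : ∃ s : ℝ, 0 < s ∧ V (Metric.thickening s D) ψ ≤ V D ψ + η :=
    hstab ψ hψT hψ0 η hη0
  set g : ℝ := min (min (min s1 s2) (min s3 s4)) s5 / 4 with hg
  have hmin : 0 < min (min (min s1 s2) (min s3 s4)) s5 :=
    lt_min (lt_min (lt_min hs1 hs2) (lt_min hs3 hs4)) hs5
  have hg0 : 0 < g := by (clear * - hs1 hs2 hs3 hs4 hs5; positivity)
  have hg1 : 4 * g ≤ s1 := by
    have : min (min (min s1 s2) (min s3 s4)) s5 ≤ s1 :=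
      (min_le_left _ _).trans ((min_le_left _ _).trans (min_le_left _ _))
    linarith only [hg, this]
  have hg2 : 4 * g ≤ s2 := by
    have : min (min (min s1 s2) (min s3 s4)) s5 ≤ s2 :=
      (min_le_left _ _).trans ((min_le_left _ _).trans (min_le_right _ _))
    linarith only [hg, this]
  have hg3 : 4 * g ≤ s3 := by
    have : min (min (min s1 s2) (min s3 s4)) s5 ≤ s3 :=
      (min_le_left _ _).trans ((min_le_right _ _).trans (min_le_left _ _))
    linarith only [hg, this]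
  have hg4 : 4 * g ≤ s4 := by
    have : min (min (min s1 s2) (min s3 s4)) s5 ≤ s4 :=
      (min_le_left _ _).trans ((min_le_right _ _).trans (min_le_right _ _))
    linarith only [hg, this]
  have hg5 : 4 * g ≤ s5 := by
    have : min (min (min s1 s2) (min s3 s4)) s5 ≤ s5 := min_le_right _ _
    linarith only [hg, this]
  -- the families
  have hSo : (Sout g D).Finite := Sout_finite hg0 hb
  have hSi : (Sin g D).Finite := by
    refine hSo.subset fun q hq => ?_
    have hz : ((g * q.1, g * q.2) : ℝ × ℝ) ∈ gsq g q := by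
      refine ⟨le_rfl, ?_, le_rfl, ?_⟩ <;> simp only <;> nlinarith only [hg0]
    have h1 := hq _ hz
    exact ⟨_, hz, (dd_pos hop hb).1 (by linarith only [hg0, h1])⟩
  obtain ⟨so, hso, hGo⟩ := hkey 0 (g / 4) _ (nest_gun hg0 hSo) (gun_ball hSo) U hU
  obtain ⟨si, hsi, hGi⟩ := hkey 0 (g / 4) _ (nest_gun hg0 hSi) (gun_ball hSi) U hU
  set Do := Metric.thickening so (gun g (Sout g D)) with hDo
  set Di := Metric.thickening si (gun g (Sin g D)) with hDi
  have hDob : Bornology.IsBounded Do := (isCompact_gun hSo).isBounded.thickening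
  have hDib : Bornology.IsBounded Di := (isCompact_gun hSi).isBounded.thickening
  have hDDo : closure D ⊆ Do := by
    refine (closure_minimal (subset_gun_Sout hg0 D) (isCompact_gun hSo).isClosed).trans ?_
    exact Metric.self_subset_thickening hso.1 _
  have hDiD : closure Di ⊆ D := by
    have h1 : Di ⊆ {z | g ≤ dd D z} := fun z hz => by
      have h' := gun_Sin_subset (s := si) (by linarith only [hg0, hsi.2]) D hz
      have h'' : g < dd D z := h'
      exact h''.le
    have h2 : closure Di ⊆ {z | g ≤ dd D z} :=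
      closure_minimal h1 (isClosed_le continuous_const (dd_cont D))
    intro z hz
    have h3 : g ≤ dd D z := h2 hz
    exact (dd_pos hop hb).1 (by linarith only [hg0, h3])
  have hDisub : Di ⊆ D := subset_closure.trans hDiD
  have h4g : {z | 4 * g < dd D z} ⊆ Di := (subset_gun_Sin hg0 D).trans
    (Metric.self_subset_thickening hsi.1 _)
  have hpi : TestOn Di p := hT3.mono ((inner_mono hg3).trans h4g)
  have hmi : TestOn Di m := hT4.mono ((inner_mono hg4).trans h4g)
  have hψo : TestOn Do ψ := hψT.mono (subset_closure.trans hDDo)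
  have hψi : TestOn Di ψ := hpi.add hmi
  -- values of V
  have v1 : V D ψ - η ≤ V Di ψ := by
    have h1 := V_mono hDib ((inner_mono hg1).trans h4g) hψT
    linarith only [hV1, h1]
  have v2 : V Di ψ ≤ V D ψ := V_mono hb hDisub hψT
  have v3 : V D φ - η ≤ V Di φ := by
    have h1 := V_mono hDib ((inner_mono hg2).trans h4g) hφ
    linarith only [hV2, h1]
  have v4 : V Di φ ≤ V D φ := V_mono hb hDisub hφ
  have v5 : V Do ψ ≤ V D ψ + η := by
    have h1 : Do ⊆ Metric.thickening s5 D :=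
      (gun_Sout_subset (s := so) (by linarith only [hg0, hso.2]) D).trans
        (Metric.thickening_mono (by linarith only [hg0, hg5]) D)
    exact (V_mono hb.thickening h1 hψT).trans hV5
  have v6 : V D ψ ≤ V Do ψ := V_mono hDob (subset_closure.trans hDDo) hψT
  have w1 : dist (gm (κ * V Di ψ) k) (gm (κ * V D ψ) k) < ε / 8 :=
    hc1 _ (by rw [Real.dist_eq, abs_lt]; constructor <;> linarith only [hη0, hηη1, v2, v1])
  have w2 : dist (gm (κ * V Do ψ) k) (gm (κ * V D ψ) k) < ε / 8 :=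
    hc1 _ (by rw [Real.dist_eq, abs_lt]; constructor <;> linarith only [hη0, hηη1, v6, v5])
  have w3 : dist (gm (κ * V Di φ) k) (gm (κ * V D φ) k) < ε / 4 :=
    hc2 _ (by rw [Real.dist_eq, abs_lt]; constructor <;> linarith only [hη0, hηη2, v4, v3])
  -- the limits
  have l1 := signed (κ := κ) hδ hDib hGi hpi hmi hp0 hm0 k
  rw [← hφe] at l1
  have l2 := hGi ψ hψi hψ0 k
  have l3 := hGo ψ hψo hψ0 k
  have n1 : ∀ᶠ n in (U : Filter ℕ), Fs (δ n) Di ⊆ F n :=
    hU (hin Di Metric.isOpen_thickening hDib hDiD)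
  have n2 : ∀ᶠ n in (U : Filter ℕ), F n ⊆ Fs (δ n) Do :=
    hU (hout Do Metric.isOpen_thickening hDob hDDo)
  filter_upwards [n1, n2, Metric.tendsto_nhds.1 l1 (ε / 8) (by positivity),
    Metric.tendsto_nhds.1 l2 (ε / 8) (by positivity),
    Metric.tendsto_nhds.1 l3 (ε / 8) (by (clear * - hε; positivity))] with n m1 m2 d1 d2 d3
  have sq := squeeze_fin hm (hδ n) hp.cs hm'.cs hp0 hm0 m1 m2 k
  have e1 : ze c (F n) (fun x => zf (F n) (δ n) φ x ^ k)
      = ze c (F n) (fun x => (hv (δ n) p (vh x) - hv (δ n) m (vh x)) ^ k) := by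
    refine ze_congr' c (F n) fun x hx => ?_
    rw [zf_eq_hv hx]
    congr 1
    have h1 := hv_add (hδ n) hp.cs hm'.cs 1 (-1) (vh x)
    have h2 : (fun z => 1 * p z + (-1) * m z) = φ := by funext z; rw [hpm z]; ring
    rw [h2] at h1
    rw [h1]; ring
  have e2 : ∀ ω, hv (δ n) ψ ω = hv (δ n) p ω + hv (δ n) m ω := by
    intro ω
    have h1 := hv_add (hδ n) hp.cs hm'.cs 1 1 ω
    have h2 : (fun z => 1 * p z + 1 * m z) = ψ := by funext z; rw [hψ]; ring
    rw [h2] at h1
    rw [h1]; ring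
  simp_rw [e2] at d2 d3
  rw [e1]
  unfold EE at d1 d2 d3
  rw [Real.dist_eq] at d1 d2 d3 w1 w2 w3 ⊢
  rw [abs_lt] at d1 d2 d3 w1 w2 w3 ⊢
  rw [abs_le] at sq
  constructor <;> linarith only [w1, w2, w3, d1, sq, d2, d3]

end Vale.Agent.P145.H8
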