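import Vale.Agent.P145.H8.Geo

/-!
# P145 / H8 / Stab : stability of the Dirichlet form under the local exterior condition

The proof is that of `PT.stab`, with circles of small radius only.
-/

namespace Vale.Agent.P145.H8

open MeasureTheory Set Filter Topology Vale.Agent.P145.PT

/-- Stability of the Dirichlet form under shrinking outer approximations, under the local exterior
condition. -/
theorem stab_loc {D : Set (ℝ × ℝ)} (hD : IsOpen D) (hb : Bornology.IsBounded D) (hextL : ExtLoc D)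
    {φ : ℝ × ℝ → ℝ} (hφ : TestOn D φ) (hφ0 : ∀ z, 0 ≤ φ z) {η : ℝ} (hη : 0 < η) :
    ∃ s : ℝ, 0 < s ∧ V (Metric.thickening s D) φ ≤ V D φ + η := by
  obtain ⟨r₀, hr₀, hext⟩ := hextL
  by_contra hcon
  push Not at hcon
  -- the outer domains
  set s : ℕ → ℝ := fun n => 1 / ((n : ℝ) + 1) with hs
  have hs0 : ∀ n, 0 < s n := fun n => by positivity
  have hs1 : ∀ n, s n ≤ 1 := fun n => by
    rw [hs]; simp only; rw [div_le_one (by positivity)]
    linarith only []
  have hst : Tendsto s atTop (𝓝 0) := tendsto_one_div_add_atTop_nhds_zero_nat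
  set E : ℕ → Set (ℝ × ℝ) := fun n => Metric.thickening (s n) D with hE
  have hEb : ∀ n, Bornology.IsBounded (E n) := fun n => hb.thickening
  have hDE : ∀ n, D ⊆ E n := fun n => Metric.self_subset_thickening (hs0 n) D
  have hE0 : ∀ n, E n ⊆ Metric.thickening 1 D := fun n => Metric.thickening_mono (hs1 n) D
  have hE0b : Bornology.IsBounded (Metric.thickening (1 : ℝ) D) := hb.thickening
  have hVn : ∀ n, V D φ + η < V (E n) φ := fun n => hcon (s n) (hs0 n)
  set V0 := V (Metric.thickening (1 : ℝ) D) φ with hV0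
  have hVn0 : ∀ n, V (E n) φ ≤ V0 := fun n => V_mono hE0b (hE0 n) hφ
  have hVD : 0 ≤ V D φ := V_nonneg hb hφ
  -- near maximisers
  have hψex : ∀ n, ∃ ψ, TestOn (E n) ψ ∧ V (E n) φ - s n ≤ (2 * ∫ z, φ z * ψ z) - energy ψ := by
    intro n
    have : Nonempty {ψ : ℝ × ℝ → ℝ // TestOn (E n) ψ} := ⟨⟨_, TestOn.zero _⟩⟩
    obtain ⟨ψ, hψ⟩ := exists_lt_of_lt_ciSup (f := fun ψ : {ψ : ℝ × ℝ → ℝ // TestOn (E n) ψ} =>
      (2 * ∫ z, φ z * ψ.1 z) - energy ψ.1) (b := V (E n) φ - s n)
      (by have := hs0 n; unfold V; linarith only [this])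
    exact ⟨ψ.1, ψ.2, hψ.le⟩
  choose ψ hψ hJ using hψex
  have hI2 : ∀ n, (∫ z, φ z * ψ n z) ^ 2 ≤ V (E n) φ * energy (ψ n) := fun n =>
    pair_le (hEb n) hφ (hψ n)
  have hen : ∀ n, energy (ψ n) ≤ 2 + 4 * V0 := by
    intro n
    have h1 := hI2 n
    have h2 := hJ n
    have h3 := energy_nonneg (ψ n)
    have h4 := hVn n
    have h5 := hVn0 n
    have h6 := hs1 n
    by_contra hc
    push Not at hc
    set I := ∫ z, φ z * ψ n z
    set e := energy (ψ n)
    have h7 : e - 1 ≤ 2 * I := by linarith only [hη, hVD, h4, h6, h2]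
    have h8 : (e - 1) ^ 2 ≤ 4 * I ^ 2 := by nlinarith only [hη, h4, hc, hVD, h5, h6, h2, h3]
    have h9 : 4 * I ^ 2 ≤ 4 * (V0 * e) := by nlinarith only [h1, h5, h3]
    nlinarith only [h1, h8, h5, h3, hc]
  have hIlow : ∀ n, V (E n) φ - Real.sqrt (s n * V0) ≤ ∫ z, φ z * ψ n z := by
    intro n
    have h1 := hI2 n
    have h2 := hJ n
    have h4 := hVn n
    have h5 := hVn0 n
    have h6 := hs0 n
    set I := ∫ z, φ z * ψ n z
    set e := energy (ψ n)
    set v := V (E n) φ
    have hv : 0 < v := by linarith only [hη, hVD, h4]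
    by_contra hc
    push Not at hc
    have h7 : Real.sqrt (s n * V0) < v - I := by linarith only [hc]
    have h8 : s n * V0 < (v - I) ^ 2 := by
      have h80 : 0 ≤ s n * V0 := mul_nonneg h6.le (by linarith only [hη, hVD, h4, h5])
      calc s n * V0 = Real.sqrt (s n * V0) ^ 2 := (Real.sq_sqrt h80).symm
        _ < (v - I) ^ 2 := pow_lt_pow_left₀ h7 (Real.sqrt_nonneg _) two_ne_zero
    have h9 : v * (v - s n + e) ≤ v * (2 * I) := mul_le_mul_of_nonneg_left (by linarith only [h2]) hv.le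
    nlinarith only [h1, h8, h9, h6, h5]
  -- Poincaré
  obtain ⟨R, hR0, hR⟩ := bdd_fst hE0b
  have hψ2 : ∀ n, ∫ z, ψ n z ^ 2 ≤ 4 * R ^ 2 * (2 + 4 * V0) := by
    intro n
    refine (poincare (fun z hz => hR z (hE0 n hz)) (hψ n)).trans ?_
    exact mul_le_mul_of_nonneg_left ((energy_ge_dx (hψ n)).trans (hen n)) (by positivity)
  set K := Real.sqrt (4 * R ^ 2 * (2 + 4 * V0)) with hK
  have hpair : ∀ θ, TestOn D θ → ∀ n, |∫ z, θ z * ψ n z| ≤ K * Real.sqrt (∫ z, θ z ^ 2) := by
    intro θ hθ n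
    rw [mul_comm]
    refine (cs2 hθ (hψ n)).trans ?_
    exact mul_le_mul_of_nonneg_left (Real.sqrt_le_sqrt (hψ2 n)) (Real.sqrt_nonneg _)
  -- ultrafilter limits
  set 𝒰 : Ultrafilter ℕ := Filter.hyperfilter ℕ with h𝒰
  have h𝒰le : (𝒰 : Filter ℕ) ≤ atTop := Nat.hyperfilter_le_atTop
  set T : (ℝ × ℝ → ℝ) → ℝ := fun θ => limUnder (𝒰 : Filter ℕ) (fun n => ∫ z, θ z * ψ n z) with hT
  have hlim : ∀ θ, TestOn D θ → Tendsto (fun n => ∫ z, θ z * ψ n z) (𝒰 : Filter ℕ) (𝓝 (T θ)) := by
    intro θ hθ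
    refine tendsto_nhds_limUnder ?_
    set B := K * Real.sqrt (∫ z, θ z ^ 2)
    obtain ⟨L, -, hL⟩ := (isCompact_closedBall (0 : ℝ) B).ultrafilter_le_nhds
      (𝒰.map (fun n => ∫ z, θ z * ψ n z)) (by
        rw [Filter.le_principal_iff, Ultrafilter.mem_coe, Ultrafilter.mem_map]
        refine Filter.mem_of_superset Filter.univ_mem fun n _ => ?_
        rw [mem_preimage, mem_closedBall_zero_iff, Real.norm_eq_abs]
        exact hpair θ hθ n)
    exact ⟨L, hL⟩
  have hneb : (𝒰 : Filter ℕ).NeBot := 𝒰.neBot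
  have hTf : L2Fn D T K :=
    { add := fun f g hf hg => by
        refine tendsto_nhds_unique (hlim _ (hf.add hg)) ?_
        refine ((hlim f hf).add (hlim g hg)).congr fun n => ?_
        rw [← integral_add (hf.intMul (hψ n).cont) (hg.intMul (hψ n).cont)]
        congr 1; funext z; ring
      smul := fun c f hf => by
        refine tendsto_nhds_unique (hlim _ (hf.smul c)) ?_
        refine ((hlim f hf).const_mul c).congr fun n => ?_
        rw [← integral_const_mul]
        congr 1; funext z; ring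
      bd := fun f hf => le_of_tendsto (hlim f hf).abs (Eventually.of_forall fun n => hpair f hf n) }
  have hst𝒰 : Tendsto s (𝒰 : Filter ℕ) (𝓝 0) := hst.mono_left h𝒰le
  have hsqrt : ∀ c : ℝ, Tendsto (fun n => Real.sqrt (s n * c)) (𝒰 : Filter ℕ) (𝓝 0) := by
    intro c
    have h1 : Tendsto (fun n => s n * c) (𝒰 : Filter ℕ) (𝓝 (0 * c)) := hst𝒰.mul_const c
    rw [zero_mul] at h1
    have h2 := (Real.continuous_sqrt.tendsto 0).comp h1
    rwa [Real.sqrt_zero] at h2
  -- the equation
  have heq : ∀ χ, TestOn D χ → T (lap χ) = - ∫ z, χ z * φ z := by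
    intro χ hχ
    have hb2 : ∀ n, |(∫ z, φ z * χ z) - ∫ z, (dx (ψ n) z * dx χ z + dy (ψ n) z * dy χ z)|
        ≤ Real.sqrt (s n * energy χ) := by
      intro n
      have hχn : TestOn (E n) χ := hχ.mono (hDE n)
      set b := (∫ z, φ z * χ z) - ∫ z, (dx (ψ n) z * dx χ z + dy (ψ n) z * dy χ z) with hbdef
      have h : ∀ t : ℝ, 0 ≤ energy χ * (t * t) + (-(2 * b)) * t + s n := by
        intro t
        have h1 := le_V (hEb n) hφ ((hψ n).add (hχn.smul t))
        rw [energy_sub (hψ n) hχn t] at h1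
        have h2 : ∫ z, φ z * (ψ n z + t * χ z) = (∫ z, φ z * ψ n z) + t * ∫ z, φ z * χ z := by
          rw [← integral_const_mul, ← integral_add (hφ.intMul (hψ n).cont)
            ((hφ.intMul hχ.cont).const_mul _)]
          congr 1; funext z; ring
        rw [h2] at h1
        have h3 := hJ n
        rw [hbdef]
        linarith
      have hd := discrim_le_zero h
      unfold discrim at hd
      rw [← Real.sqrt_sq_eq_abs]
      refine Real.sqrt_le_sqrt ?_
      nlinarith only [hd]
    refine tendsto_nhds_unique (hlim _ hχ.lap) ?_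
    have h1 : ∀ n, ∫ z, lap χ z * ψ n z
        = ((∫ z, φ z * χ z) - ∫ z, (dx (ψ n) z * dx χ z + dy (ψ n) z * dy χ z))
          - ∫ z, χ z * φ z := by
      intro n
      have h2 : ∫ z, lap χ z * ψ n z = ∫ z, ψ n z * lap χ z := by
        congr 1; funext z; ring
      have h3 : ∫ z, χ z * φ z = ∫ z, φ z * χ z := by congr 1; funext z; ring
      rw [h2, h3, green_id (hψ n) hχ.sm]; ring
    simp_rw [h1]
    have h4 : Tendsto (fun n => (∫ z, φ z * χ z)
        - ∫ z, (dx (ψ n) z * dx χ z + dy (ψ n) z * dy χ z)) (𝒰 : Filter ℕ) (𝓝 0) :=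
      squeeze_zero_norm (fun n => by rw [Real.norm_eq_abs]; exact hb2 n) (hsqrt (energy χ))
    simpa only [zero_sub] using h4.sub_const (∫ z, χ z * φ z)
  -- decay
  have hdec : ∀ ε : ℝ, 0 < ε → ∃ r : ℝ, 0 < r ∧ ∀ x ∈ D, dd D x < r →
      T (bump (dd D x / 2) x) ≤ ε := by
    intro ε hε
    obtain ⟨rφ, hrφ, hφz⟩ := exists_low hD hb hφ
    set δ : ℝ := ε / 16 with hδ
    have hδ0 : 0 < δ := by (clear * - hε; positivity)
    set E0 : ℝ := 2 + 4 * V0 with hE0'
    obtain ⟨R₂, hR₂0, hR₂, hR₂r⟩ : ∃ R₂ : ℝ, 0 < R₂ ∧ R₂ ≤ rφ / 4 ∧ R₂ ≤ r₀ :=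
      ⟨min (rφ / 4) r₀, lt_min (by linarith only [hrφ]) hr₀, min_le_left _ _, min_le_right _ _⟩
    set L : ℝ := E0 / δ ^ 2 + 1 with hL
    have hE00 : 0 ≤ E0 := (energy_nonneg (ψ 0)).trans (hen 0)
    have hL1 : 0 < L := by (clear * - hE00 hε; positivity)
    set R₁ : ℝ := R₂ * Real.exp (-L) with hR₁
    have hR₁0 : 0 < R₁ := by positivity
    have hR₁₂ : R₁ < R₂ := by
      rw [hR₁]
      have : Real.exp (-L) < 1 := by rw [← Real.exp_zero]; exact Real.exp_lt_exp.2 (by linarith only [hL1])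
      nlinarith only [this, hR₂0]
    have hlog : Real.log (R₂ / R₁) = L := by
      rw [hR₁, div_mul_eq_div_div, div_self hR₂0.ne', one_div, ← Real.exp_neg, neg_neg,
        Real.log_exp]
    obtain ⟨s', hs', ρ, hρ, hx⟩ := hext R₁ hR₁0
    refine ⟨min (min ρ R₁) R₂, lt_min (lt_min hρ hR₁0) hR₂0, fun x hxD hxr => ?_⟩
    have hx1 : dd D x < ρ := lt_of_lt_of_le hxr ((min_le_left _ _).trans (min_le_left _ _))
    have hx2 : dd D x < R₁ := lt_of_lt_of_le hxr ((min_le_left _ _).trans (min_le_right _ _))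
    have hx3 : dd D x < R₂ := lt_of_lt_of_le hxr (min_le_right _ _)
    have hxp : 0 < dd D x := (dd_pos hD hb).2 hxD
    have hbt : TestOn D (bump (dd D x / 2) x) :=
      bump_test (by linarith only [hxp]) (ball_sub (by linarith only [hxp]))
    have hbi : ∫ z, bump (dd D x / 2) x z = 1 := bump_int (by linarith only [hxp]) x
    set β := bump (dd D x / 2) x with hβ
    have hev : ∀ᶠ n in (𝒰 : Filter ℕ), ∫ z, β z * ψ n z
        ≤ ε + Real.sqrt (∫ z, β z ^ 2) * Real.sqrt (s n * (4 * R ^ 2)) := by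
      filter_upwards [hst𝒰.eventually (gt_mem_nhds hs')] with n hn
      have hEs : E n ⊆ Metric.thickening s' D := Metric.thickening_mono hn.le D
      have hvan : ∀ p, p ∉ Metric.thickening s' D → ψ n p = 0 := by
        intro p hp
        by_contra h
        exact hp (hEs ((hψ n).2.2 (subset_tsupport _ h)))
      obtain ⟨r, hr, hrθ⟩ := courant (hψ n) x hR₁0 hR₁₂ hδ0 (by
          refine lt_of_le_of_lt (hen n) ?_
          rw [hlog, hL, mul_add, mul_one, mul_div_cancel₀ _ (by (clear * - hε; positivity))]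
          have : 0 < δ ^ 2 := by positivity
          linarith only [this]) (fun r hr => by
          obtain ⟨p, hp1, hp2⟩ := hx x hxD hx1 r hr.1.le (hr.2.le.trans hR₂r)
          obtain ⟨θ, hθ, hpθ⟩ := exists_angle x p (hR₁0.trans hr.1).le hp1
          exact ⟨θ, hθ, by rw [← hpθ]; exact hvan p hp2⟩)
      have hr0 : 0 < r := hR₁0.trans hr.1
      have hnorm : ∀ p, sqn (p - x) < r ^ 2 → ‖p - x‖ < r := by
        intro p hp
        have := (norm_sq_le_sqn (p - x)).trans_lt hp
        exact lt_of_pow_lt_pow_left₀ 2 hr0.le this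
      obtain ⟨a, ha, hea, hpa⟩ := trunc (hEb n) hφ (hψ n) (hJ n) (x := x) (r := r)
        (ε := ε / 2) (by (clear * - hε; positivity)) (fun p hp => by
          obtain ⟨θ, hθ, hpθ⟩ := exists_angle x p hr0.le hp
          have := hrθ θ hθ
          rw [← hpθ] at this
          have h1 := (abs_le.1 this).2
          rw [hδ] at h1
          linarith only [hε, h1]) (fun p hp => by
          refine hφz p ?_
          have h1 := dd_le_add D p x
          have h2 := hnorm p hp
          rw [dist_eq_norm] at h1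
          have h3 := hr.2
          linarith only [hR₂, hR₁₂, hx2, hxp, h1, h2, h3])
      have hbp : ∀ z, β z * ψ n z ≤ β z * (a z + ε) := by
        intro z
        by_cases hz : dd D x / 2 < dist z x
        · rw [hβ, bump_zero (by linarith only [hxp]) hz]; simp
        · push Not at hz
          have h1 : sqn (z - x) < r ^ 2 := by
            rw [dist_eq_norm] at hz
            have h2 := sqn_le_of_norm (z - x)
            have h3 : ‖z - x‖ ^ 2 ≤ (dd D x / 2) ^ 2 :=
              pow_le_pow_left₀ (norm_nonneg _) hz 2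
            have h4 : dd D x < r := hx2.trans hr.1
            nlinarith only [h2, h3, hxp, h4]
          have h5 := hpa z h1
          refine mul_le_mul_of_nonneg_left ?_ (bump_nonneg _ _ _)
          linarith only [h5]
      have hba : ∫ z, β z * a z ≤ Real.sqrt (∫ z, β z ^ 2) * Real.sqrt (s n * (4 * R ^ 2)) := by
        refine (le_abs_self _).trans ((cs2 hbt ha).trans ?_)
        refine mul_le_mul_of_nonneg_left (Real.sqrt_le_sqrt ?_) (Real.sqrt_nonneg _)
        have h1 := poincare (fun z hz => hR z (hE0 n hz)) ha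
        have h2 := energy_ge_dx ha
        have h3 : 0 ≤ 4 * R ^ 2 := by positivity
        nlinarith only [h1, hea, h2]
      calc ∫ z, β z * ψ n z ≤ ∫ z, β z * (a z + ε) :=
            integral_mono (hbt.intMul (hψ n).cont) (hbt.intMul (ha.cont.add continuous_const)) hbp
        _ = (∫ z, β z * a z) + ε := by
            have : ∀ z, β z * (a z + ε) = β z * a z + ε * β z := fun z => by ring
            simp_rw [this]
            rw [integral_add (hbt.intMul ha.cont) (hbt.int.const_mul _), integral_const_mul, hbi,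
              mul_one]
        _ ≤ _ := by linarith only [hba]
    have hr1 : Tendsto (fun n => ε + Real.sqrt (∫ z, β z ^ 2) * Real.sqrt (s n * (4 * R ^ 2)))
        (𝒰 : Filter ℕ) (𝓝 (ε + Real.sqrt (∫ z, β z ^ 2) * 0)) :=
      ((hsqrt (4 * R ^ 2)).const_mul _).const_add _
    rw [mul_zero, add_zero] at hr1
    exact le_of_tendsto_of_tendsto (hlim β hbt) hr1 hev
  -- T φ is large
  have hTφ : V D φ + η ≤ T φ := by
    have h1 : Tendsto (fun n => V D φ + η - Real.sqrt (s n * V0)) (𝒰 : Filter ℕ)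
        (𝓝 (V D φ + η - 0)) := (hsqrt V0).const_sub _
    rw [sub_zero] at h1
    refine le_of_tendsto_of_tendsto h1 (hlim φ hφ) (Eventually.of_forall fun n => ?_)
    have h2 := hIlow n
    have h3 := hVn n
    simp only
    linarith only [h2, h3]
  obtain ⟨χ, hχ, hχE, hχT⟩ := lemB hD hb hTf hφ heq hdec hφ hφ0 (show 0 < η / 4 by linarith only [hη])
  have hfin := le_V hb hφ hχ
  linarith

end Vale.Agent.P145.H8
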